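import Vale.Agent.P267.Statement
import Mathlib.Geometry.Manifold.MFDeriv.Atlas
import Mathlib.Geometry.Manifold.MFDeriv.SpecificFunctions
import Mathlib.Analysis.Complex.CauchyIntegral
import Mathlib.Analysis.Calculus.InverseFunctionTheorem.ContDiff

/-!
# P267, area D: embedded projective lines in a complex surface
-/

open scoped Manifold ContDiff Topology
open Vale.Agent.P272.K Set Metric

noncomputable section

namespace Vale.Agent.P267.H338

/-- An embedded projective line in the complex surface `M`. -/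
structure EmbP1 (M : Type*) [TopologicalSpace M] [ChartedSpace (Cm 2) M] extends P1Map M where
  inj : Function.Injective f₀
  ninf : f₁ 0 ∉ Set.range f₀
  imm₀ : ∀ z, Function.Injective (mfderiv 𝓘(ℂ) 𝓘(ℂ, Cm 2) f₀ z)
  imm₁ : ∀ z, Function.Injective (mfderiv 𝓘(ℂ) 𝓘(ℂ, Cm 2) f₁ z)

namespace EmbP1

variable {M : Type*} [TopologicalSpace M] [ChartedSpace (Cm 2) M] (φ : EmbP1 M)

/-- the image -/
def image : Set M := φ.toP1Map.image

theorem mem_image_f₀ (z : ℂ) : φ.f₀ z ∈ φ.image := Or.inl ⟨z, rfl⟩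

theorem glue' (z : ℂ) (hz : z ≠ 0) : φ.f₁ z = φ.f₀ z⁻¹ := by
  have := φ.glue z⁻¹ (inv_ne_zero hz)
  rw [inv_inv] at this
  exact this.symm

theorem mem_image_f₁ (z : ℂ) : φ.f₁ z ∈ φ.image := by
  rcases eq_or_ne z 0 with rfl | hz
  · exact Or.inr rfl
  · rw [φ.glue' z hz]; exact φ.mem_image_f₀ _

/-- exchange of the two coordinate planes of `ℙ¹` -/
def swap : EmbP1 M where
  f₀ := φ.f₁
  f₁ := φ.f₀
  holo₀ := φ.holo₁
  holo₁ := φ.holo₀
  glue := φ.glue'
  inj := by
    intro z w h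
    rcases eq_or_ne z 0 with rfl | hz
    · rcases eq_or_ne w 0 with rfl | hw
      · rfl
      · rw [φ.glue' w hw] at h
        exact absurd ⟨_, h.symm⟩ φ.ninf
    · rcases eq_or_ne w 0 with rfl | hw
      · rw [φ.glue' z hz] at h
        exact absurd ⟨_, h⟩ φ.ninf
      · rw [φ.glue' z hz, φ.glue' w hw] at h
        exact inv_injective (φ.inj h)
  ninf := by
    rintro ⟨z, hz⟩
    rcases eq_or_ne z 0 with rfl | h0
    · exact φ.ninf ⟨0, hz.symm⟩
    · rw [φ.glue' z h0] at hz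
      exact h0 (inv_eq_zero.1 (φ.inj hz))
  imm₀ := φ.imm₁
  imm₁ := φ.imm₀

theorem image_swap : φ.swap.image = φ.image := by
  apply Set.Subset.antisymm
  · rintro _ (⟨z, rfl⟩ | rfl)
    · exact φ.mem_image_f₁ z
    · exact φ.mem_image_f₀ 0
  · rintro _ (⟨z, rfl⟩ | rfl)
    · exact φ.swap.mem_image_f₁ z
    · exact φ.swap.mem_image_f₀ 0

theorem image_eq {R : ℝ} (hR : 0 < R) :
    φ.image = φ.f₀ '' closedBall 0 R ∪ φ.f₁ '' closedBall 0 R⁻¹ := by
  apply Set.Subset.antisymm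
  · rintro _ (⟨z, rfl⟩ | rfl)
    · rcases le_or_gt ‖z‖ R with h | h
      · exact Or.inl ⟨z, by simpa using h, rfl⟩
      · have hz : z ≠ 0 := by
          rintro rfl
          rw [norm_zero] at h
          linarith
        refine Or.inr ⟨z⁻¹, ?_, (φ.glue z hz).symm⟩
        rw [mem_closedBall, dist_zero_right, norm_inv]
        exact inv_anti₀ hR h.le
    · exact Or.inr ⟨0, by simp [hR.le], rfl⟩
  · rintro _ (⟨z, -, rfl⟩ | ⟨z, -, rfl⟩)
    · exact φ.mem_image_f₀ z
    · exact φ.mem_image_f₁ z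

theorem isCompact_image : IsCompact φ.image := by
  rw [φ.image_eq one_pos]
  exact ((isCompact_closedBall _ _).image φ.holo₀.continuous).union
    ((isCompact_closedBall _ _).image φ.holo₁.continuous)

theorem isClosed_image [T2Space M] : IsClosed φ.image := φ.isCompact_image.isClosed

theorem isPreconnected_image : IsPreconnected φ.image := by
  have h1 : IsPreconnected (φ.f₀ '' univ) := isPreconnected_univ.image _ φ.holo₀.continuous.continuousOn
  have h2 : IsPreconnected (φ.f₁ '' univ) := isPreconnected_univ.image _ φ.holo₁.continuous.continuousOn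
  have h3 : φ.image = φ.f₀ '' univ ∪ φ.f₁ '' univ := by
    apply Set.Subset.antisymm
    · rintro _ (⟨z, rfl⟩ | rfl)
      · exact Or.inl ⟨z, trivial, rfl⟩
      · exact Or.inr ⟨0, trivial, rfl⟩
    · rintro _ (⟨z, -, rfl⟩ | ⟨z, -, rfl⟩)
      · exact φ.mem_image_f₀ z
      · exact φ.mem_image_f₁ z
  rw [h3]
  refine IsPreconnected.union (φ.f₀ 1) ⟨1, trivial, rfl⟩ ⟨1, trivial, ?_⟩ h1 h2
  rw [φ.glue' 1 one_ne_zero, inv_one]

/-- Away from `f₀ z₀`: the complement of an open set `V` of parameters around `z₀` is mapped to a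
compact set which does not contain `f₀ z₀`. -/
theorem exists_compact_compl (z₀ : ℂ) {V : Set ℂ} (hV : IsOpen V) (hz : z₀ ∈ V) :
    ∃ K : Set M, IsCompact K ∧ φ.f₀ z₀ ∉ K ∧ φ.image ⊆ φ.f₀ '' V ∪ K := by
  set R : ℝ := ‖z₀‖ + 1 with hR
  have hR0 : 0 < R := by positivity
  refine ⟨φ.f₀ '' (closedBall 0 R \ V) ∪ φ.f₁ '' closedBall 0 R⁻¹,
    (((isCompact_closedBall _ _).diff hV).image φ.holo₀.continuous).union
    ((isCompact_closedBall _ _).image φ.holo₁.continuous), ?_, ?_⟩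
  · rintro (⟨z, ⟨-, hzV⟩, h⟩ | ⟨w, hw, h⟩)
    · rw [φ.inj h] at hzV
      exact hzV hz
    · rcases eq_or_ne w 0 with rfl | hw0
      · exact φ.ninf ⟨_, h.symm⟩
      · rw [φ.glue' w hw0] at h
        have h1 := φ.inj h
        have h2 : ‖w‖ ≤ R⁻¹ := by simpa using hw
        have h3 : R ≤ ‖w⁻¹‖ := by
          rw [norm_inv]
          have := inv_anti₀ (norm_pos_iff.2 hw0) h2
          rwa [inv_inv] at this
        rw [h1, hR] at h3
        linarith
  · rw [φ.image_eq hR0]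
    rintro _ (⟨z, hzR, rfl⟩ | ⟨w, hw, rfl⟩)
    · by_cases hzV : z ∈ V
      · exact Or.inl ⟨z, hzV, rfl⟩
      · exact Or.inr (Or.inl ⟨z, ⟨hzR, hzV⟩, rfl⟩)
    · exact Or.inr (Or.inr ⟨w, hw, rfl⟩)

end EmbP1

end Vale.Agent.P267.H338
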