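import Vale.Agent.P267.H338.Images
import Vale.Agent.P267.H332.Pair.Deck
import Vale.Agent.P267.H158.Inst
import Vale.Agent.P267.H158.Conn
import Vale.Agent.P267.H221.Out
import Vale.Agent.P267.H399.Calc2

/-!
# P267, area D: counting rational curves from sections on the infinite cyclic cover

The pairing of norm functions with the Chern classes of the line bundles `E j` and their
translates.
-/

open Set Filter Topology
open scoped Manifold ContDiff
open Vale.Agent.P267.FL Vale.Agent.P267.H158 Vale.Agent.P267.XT Vale.Agent.P267.H757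
  Vale.Agent.P267.H332

noncomputable section

namespace Vale.Agent.P267.H338

section cover

variable {X : Type} [TopologicalSpace X] [ChartedSpace C2 X] {hh : C(X, UnitAddCircle)}

theorem chartMap_shift (k : ℤ) : ChartMap (Cov.shift k : Cov hh → Cov hh) where
  cont := (Cov.shift k).continuous
  germ y := Eventually.of_forall fun z => by
    have h1 := Cov.chartAt_coe (H := C2) (Cov.shift k y)
    have h2 := Cov.chartAt_coe (H := C2) y
    simp only [h1, h2, Function.comp_apply, Cov.p_shift]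

theorem isAct_shift [IsManifold 𝓘(ℂ, C2) ω X] :
    IsAct (fun k : ℤ => (Cov.shift k : Cov hh → Cov hh)) where
  zero x := Cov.shift_zero x
  add k l x := Cov.shift_add k l x
  hol k := Cov.contMDiff_shift _ k

omit [ChartedSpace C2 X] in
theorem sigmaCompact_cov [CompactSpace X] : SigmaCompactSpace (Cov hh) := by
  refine ⟨fun n => {z : Cov hh | -(n : ℝ) ≤ Cov.f z ∧ Cov.f z ≤ n},
    fun n => Cov.isCompact_slab _ _, ?_⟩
  refine eq_univ_of_forall fun z => mem_iUnion.2 ?_
  obtain ⟨n, hn⟩ := exists_nat_ge |Cov.f z|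
  exact ⟨n, abs_le.1 hn⟩

end cover

/-- The facts on integration and line bundles used in the count (to be discharged). -/
structure CountAx (M : Type) [TopologicalSpace M] [ChartedSpace C2 M] : Prop where
  int : IntAx M
  /-- invariance of the integral under chart compatible homeomorphisms -/
  inv : ∀ (g : M ≃ₜ M), ChartMap (g : M → M) → ∀ b : M → ℂ, Reg2 ∞ 1 b → HasCompactSupport b →
    intX (fun x => b (g x)) = intX b
  /-- the curvature form is smooth and closed -/
  curv : ∀ (ι : Type) [Fintype ι] [DecidableEq ι] (L : LB M ι), L.curv.Smooth ∧ L.curv.Closed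
  /-- squared norms of holomorphic sections are norm functions -/
  nf : ∀ (ι : Type) [Fintype ι] [DecidableEq ι] (L : LB M ι) (a : M → Fin 2 → ℂ)
    (s : M → EuclideanSpace ℂ ι), L.IsHol a → Reg0 ∞ 0 s → L.Sec s →
    (∀ x i, L.db0 a 0 s x i = 0) → Dense {x | s x ≠ 0} →
    IsNormFn C2 (fun x => ‖s x‖ ^ 2) ∧ cF (fun x => ‖s x‖ ^ 2) = L.chern a
  /-- `chern` and `curv` are cohomologous -/
  chern : ∀ (ι : Type) [Fintype ι] [DecidableEq ι] (L : LB M ι) (a : M → Fin 2 → ℂ),
    L.IsHol a → ∀ η : TwoF M, η ∈ HC M → intX ((L.chern a).wedge η) = intX (L.curv.wedge η)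

theorem curv_eq_zero {M : Type*} [TopologicalSpace M] [ChartedSpace C2 M] {ι : Type} [Fintype ι]
    [DecidableEq ι] {L : LB M ι} {x : M} {P₀ : Matrix ι ι ℂ} (h : ∀ᶠ y in 𝓝 x, L.P y = P₀) :
    L.curv.f20 x = 0 ∧ L.curv.f11 x = 0 ∧ L.curv.f02 x = 0 := by
  have h1 : ∀ i j, dbar0 0 (fun y => L.P y i j) x = 0 := by
    intro i j
    have h2 : (fun y => L.P y i j) =ᶠ[𝓝 x] fun _ => P₀ i j := h.mono fun y hy => by
      change L.P y i j = P₀ i j
      rw [hy]
    rw [dbar0_congr h2, dbar0_const]
  have h3 : ∀ i j, del0 (fun y => L.P y i j) x = 0 := by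
    intro i j
    funext k
    have hc : ContinuousAt (chartAt C2 x).symm (chartAt C2 x x) :=
      (chartAt C2 x).continuousAt_symm (mem_chart_target C2 x)
    have h4 : (fun z => L.P ((chartAt C2 x).symm z) i j) =ᶠ[𝓝 (chartAt C2 x x)]
        fun _ => P₀ i j := by
      have h5 : ∀ᶠ y in 𝓝 ((chartAt C2 x).symm (chartAt C2 x x)), L.P y = P₀ := by
        rw [(chartAt C2 x).left_inv (mem_chart_source C2 x)]; exact h
      exact (hc.eventually h5).mono fun z hz => by
        change L.P _ i j = P₀ i j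
        rw [hz]
    change dz k _ _ = _
    rw [dz_congr h4, dz_const]
    rfl
  have h4 : ∀ k : Fin 2, (Matrix.of fun i j => dbar0 0 (fun y => L.P y i j) x k) = 0 := by
    intro k; ext i j; simp [h1]
  have h5 : ∀ k : Fin 2, (Matrix.of fun i j => del0 (fun y => L.P y i j) x k) = 0 := by
    intro k; ext i j; simp [h3]
  refine ⟨?_, ?_, ?_⟩
  · change L.F20 x = 0
    simp only [LB.F20, h5]
    simp
  · change L.F11 x = 0
    ext k l
    simp only [LB.F11, h5, h4, Matrix.of_apply]
    simp
  · change L.F02 x = 0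
    simp only [LB.F02, h4]
    simp

section core

variable {X : Type} [TopologicalSpace X] [T2Space X] [CompactSpace X] [ChartedSpace C2 X]
  [IsManifold 𝓘(ℂ, C2) ω X] (hh : C(X, UnitAddCircle))

omit [T2Space X] [CompactSpace X] [ChartedSpace C2 X] [IsManifold 𝓘(ℂ, C2) ω X] in
theorem supp2_pb2_subset {g g' : Cov hh → Cov hh} (h1 : ∀ x, g' (g x) = x)
    (h2 : ∀ x, g (g' x) = x) (hgc : Continuous g) (η : TwoF (Cov hh)) :
    supp2 (pb2 g η) ⊆ g' '' supp2 η := by
  have himg : g' '' supp2 η = g ⁻¹' supp2 η := by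
    ext x
    constructor
    · rintro ⟨y, hy, rfl⟩
      rw [mem_preimage, h2]; exact hy
    · intro hx
      exact ⟨g x, hx, h1 x⟩
  rw [himg]
  refine closure_minimal ?_ (isClosed_closure.preimage hgc)
  intro x hx
  exact subset_closure hx

/-- **Count of rational curves.** -/
theorem count_core (hAx : CountAx (Cov hh)) {ι : Type*} [Finite ι] [DecidableEq ι]
    (κ : ι → Type) [∀ i, Fintype (κ i)] [∀ i, DecidableEq (κ i)]
    (E : ∀ i, LB (Cov hh) (κ i)) (i₀ : ∀ i, κ i) (R : ℝ)
    (htriv : ∀ i (x : Cov hh), R ≤ |Cov.f x| → (E i).P x = Matrix.single (i₀ i) (i₀ i) 1)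
    (hdot : ∀ i j (k : ℤ) (L' : LB (Cov hh) (κ j)), (∀ x, L'.P (Cov.shift k x) = (E j).P x) →
      RR.isec (E i) L' = if i = j ∧ k = 0 then -1 else 0)
    (a : ι → Cov hh → Fin 2 → ℂ) (α : ∀ i, Cov hh → EuclideanSpace ℂ (κ i))
    (hhol : ∀ i, (E i).IsHol (a i)) (hreg : ∀ i, Reg0 ∞ 0 (α i)) (hsec : ∀ i, (E i).Sec (α i))
    (heq : ∀ i x j, (E i).db0 (a i) 0 (α i) x j = 0) (hdense : ∀ i, Dense {x | α i x ≠ 0})
    (hcurves : ∀ i x, α i x = 0 → ∃ φ : EmbP1 (Cov hh), x ∈ φ.image ∧ ∀ y ∈ φ.image, α i y = 0) :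
    ∃ C : ι → Set X, Function.Injective C ∧ ∀ i, IsRationalCurve (C i) := by
  classical
  have hSC : SigmaCompactSpace (Cov hh) := sigmaCompact_cov
  have hAct := isAct_shift (hh := hh)
  -- the forms
  have hcurv : ∀ j, (E j).curv.Smooth ∧ (E j).curv.Closed := fun j => hAx.curv (κ j) (E j)
  set K : Set (Cov hh) := {z | -R ≤ Cov.f z ∧ Cov.f z ≤ R} with hK
  have hKc : IsCompact K := Cov.isCompact_slab _ _
  have hsupp : ∀ j, supp2 (E j).curv ⊆ K := by
    intro j
    refine closure_minimal ?_ hKc.isClosed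
    intro x hx
    by_contra hxK
    have h1 : R < |Cov.f x| := by
      by_contra h2
      exact hxK (abs_le.1 (not_lt.1 h2))
    have h2 : ∀ᶠ y in 𝓝 x, (E j).P y = Matrix.single (i₀ j) (i₀ j) 1 := by
      have h3 : IsOpen {y : Cov hh | R < |Cov.f y|} :=
        isOpen_lt continuous_const Cov.continuous_f.abs
      filter_upwards [h3.mem_nhds h1] with y hy
      exact htriv j y hy.le
    obtain ⟨h4, h5, h6⟩ := curv_eq_zero h2
    rcases hx with h | h | h
    · exact h h4
    · exact h h5
    · exact h h6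
  have hηs : ∀ j (k : ℤ), supp2 (pb2 (Cov.shift (-k) : Cov hh → Cov hh) (E j).curv) ⊆
      (Cov.shift k : Cov hh → Cov hh) '' K := by
    intro j k
    refine (supp2_pb2_subset hh (fun x => Cov.shift_shift_neg k x)
      (fun x => Cov.shift_neg_shift k x) (Cov.shift (-k)).continuous _).trans
      (image_mono (hsupp j))
  have hη : ∀ j k, pb2 (Cov.shift (-k) : Cov hh → Cov hh) (E j).curv ∈ HC (Cov hh) := by
    intro j k
    exact ⟨pb2_smooth (chartMap_shift (-k)) (hcurv j).1, pb2_closed (chartMap_shift (-k)) (hcurv j).2,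
      (hKc.image (Cov.shift k).continuous).of_isClosed_subset isClosed_closure (hηs j k)⟩
  -- the norm functions
  have hN := fun i => hAx.nf (κ i) (E i) (a i) (α i) (hhol i) (hreg i) (hsec i) (heq i) (hdense i)
  obtain ⟨φ, hφ⟩ := exists_lines (M := Cov hh) hAct (f := Cov.f) Cov.continuous_f
    (fun k x => Cov.f_shift k x) (N := fun i x => ‖α i x‖ ^ 2) (fun i => (hN i).1)
    (by
      intro i x hx
      have hx0 : α i x = 0 := by
        have h1 : ‖α i x‖ ^ 2 = 0 := hx
        simpa using h1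
      obtain ⟨φ, h1, h2⟩ := hcurves i x hx0
      exact ⟨φ, h1, fun y hy => by simp [h2 y hy]⟩)
    hKc
    (fun j k N => -(1 / (4 * (Real.pi : ℂ) ^ 2)) *
      intX ((cF N).wedge (pb2 (Cov.shift (-k) : Cov hh → Cov hh) (E j).curv)))
    (by
      intro j k N N' h1 h2
      have h3 := pairC_mul hAx.int h1 h2 ⟨_, hη j k⟩
      simp only [pairC_apply] at h3
      rw [h3]; ring)
    (by
      intro j k N h1 h2
      have h3 := pairC_eq_zero hAx.int h1 ⟨_, hη j k⟩ (fun x hx =>
        lt_of_le_of_ne (h1.nonneg x) (Ne.symm (h2 x (hηs j k hx))))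
      rw [pairC_apply] at h3
      rw [h3, mul_zero])
    (by
      intro j k l N h1
      have hN' : IsNormFn C2 fun x => N (Cov.shift (-l) x) :=
        h1.comp ((hAct.hol (-l)).mdifferentiable (by simp))
          ((contMDiff_real (hAct.hol (-l))).of_le le_top) (Cov.shift (-l)).isOpenMap
      have h2 : (cF fun x => N (Cov.shift (-l) x)) =
          pb2 (Cov.shift (-l) : Cov hh → Cov hh) (cF N) := by
        have h3 : (curvN fun x => N (Cov.shift (-l) x)) = fun x => curvN N (Cov.shift (-l) x) := by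
          funext x
          exact curvN_comp h1 hN' (Cov.shift (-l)).continuous.continuousAt
            ((chartMap_shift (-l)).germ x)
        rw [cF, h3]
        rfl
      have h4 : pb2 (Cov.shift (-(k + l)) : Cov hh → Cov hh) (E j).curv =
          pb2 (Cov.shift (-l) : Cov hh → Cov hh)
            (pb2 (Cov.shift (-k) : Cov hh → Cov hh) (E j).curv) := by
        have h5 : ∀ x : Cov hh, Cov.shift (-(k + l)) x = Cov.shift (-k) (Cov.shift (-l) x) := by
          intro x
          rw [← Cov.shift_add, neg_add]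
        simp only [pb2, h5]
      have h5 := hAx.inv (Cov.shift (-l)) (chartMap_shift (-l))
        ((cF N).wedge (pb2 (Cov.shift (-k) : Cov hh → Cov hh) (E j).curv))
        (reg2_wedge (cF_smooth h1) (hη j k).1) (hasCompactSupport_wedge _ (hη j k).2.2)
      rw [h2, h4, ← h5]
      rfl)
    (by
      intro i j k
      have h1 := hdot i j k ((chartMap_shift (-k)).lb (E j)) (fun x => by
        rw [ChartMap.lb_P, Cov.shift_neg_shift])
      rw [RR.isec] at h1
      rw [← h1, (hN i).2, hAx.chern (κ i) (E i) (a i) (hhol i) _ (hη j k)]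
      congr 3
      have h20 : (fun y => (E j).F20 (Cov.shift (-k) y)) = ((chartMap_shift (-k)).lb (E j)).F20 :=
        funext fun y => (ChartMap.lb_F20 _ _ y).symm
      have h11 : (fun y => (E j).F11 (Cov.shift (-k) y)) = ((chartMap_shift (-k)).lb (E j)).F11 :=
        funext fun y => (ChartMap.lb_F11 _ _ y).symm
      have h02 : (fun y => (E j).F02 (Cov.shift (-k) y)) = ((chartMap_shift (-k)).lb (E j)).F02 :=
        funext fun y => (ChartMap.lb_F02 _ _ y).symm
      simp only [pb2, LB.curv, h20, h11, h02])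
  exact exists_curves hAct (f := Cov.f) Cov.continuous_f (fun k x => Cov.f_shift k x)
    (π := Cov.p) ((Cov.contMDiff_p (n := ω) 𝓘(ℂ, C2)).mdifferentiable (by simp))
    (fun x y h => by
      obtain ⟨k, hk⟩ := Cov.p_eq_iff.1 h
      exact ⟨k, hk.symm⟩) φ hφ

end core

end Vale.Agent.P267.H338
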