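import Vale.Agent.P267.H338.Iface
import Mathlib

/-!
# P267, area D: local equations of embedded projective lines
-/

open scoped Manifold ContDiff Topology
open Vale.Agent.P272.K Set Metric

noncomputable section

namespace Vale.Agent.P267.H338

/-- Local inverse of a holomorphic function of one variable. -/
theorem local_inverse {a : ℂ → ℂ} {z₀ : ℂ} {V : Set ℂ} (hV : IsOpen V) (hz : z₀ ∈ V)
    (ha : DifferentiableOn ℂ a V) (hd : deriv a z₀ ≠ 0) :
    ∃ W T : Set ℂ, ∃ b : ℂ → ℂ, IsOpen W ∧ z₀ ∈ W ∧ W ⊆ V ∧ IsOpen T ∧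
      DifferentiableOn ℂ b T ∧ (∀ z ∈ W, a z ∈ T ∧ b (a z) = z) ∧
      ∀ t ∈ T, b t ∈ W ∧ a (b t) = t := by
  have han : AnalyticAt ℂ a z₀ := ha.analyticAt (hV.mem_nhds hz)
  have hst : HasStrictDerivAt a (deriv a z₀) z₀ := han.hasStrictDerivAt
  have hst' := hst.hasStrictFDerivAt_equiv hd
  set R := hst'.toOpenPartialHomeomorph a with hR
  have hRa : (R : ℂ → ℂ) = a := hst'.toOpenPartialHomeomorph_coe
  have hRs : z₀ ∈ R.source := hst'.mem_toOpenPartialHomeomorph_source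
  -- the open set where the derivative is nonzero
  have hcont : ContinuousOn (deriv a) V := (ha.deriv hV).continuousOn
  have hopen : IsOpen (V ∩ {z | deriv a z ≠ 0}) :=
    hcont.isOpen_inter_preimage hV (isOpen_ne)
  set S : Set ℂ := V ∩ {z | deriv a z ≠ 0} with hS
  set R' := R.restrOpen S hopen with hR'
  have hsrc : R'.source = R.source ∩ S := R.restrOpen_source S hopen
  have hR'a : ∀ z, R' z = a z := by
    intro z
    rw [← hRa]
    rfl
  refine ⟨R'.source, R'.target, R'.symm, R'.open_source, ?_, ?_, R'.open_target, ?_, ?_, ?_⟩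
  · rw [hsrc]; exact ⟨hRs, hz, hd⟩
  · rw [hsrc]; exact fun z hz => hz.2.1
  · intro t ht
    have h1 : R'.symm t ∈ R'.source := R'.map_target ht
    rw [hsrc] at h1
    have h2 : HasDerivAt (R' : ℂ → ℂ) (deriv a (R'.symm t)) (R'.symm t) := by
      have h3 : HasDerivAt a (deriv a (R'.symm t)) (R'.symm t) :=
        (ha.differentiableAt (hV.mem_nhds h1.2.1)).hasDerivAt
      have h4 : (R' : ℂ → ℂ) = a := funext hR'a
      rw [h4]; exact h3
    exact (R'.hasDerivAt_symm ht h1.2.2 h2).differentiableAt.differentiableWithinAt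
  · intro z hz
    rw [← hR'a]
    exact ⟨R'.map_source hz, R'.left_inv hz⟩
  · intro t ht
    exact ⟨R'.map_target ht, by rw [← hR'a]; exact R'.right_inv ht⟩

/-- A holomorphic curve in `ℂ²` is, near a point where its derivative is not zero, the zero set
of a holomorphic function with nonvanishing differential. -/
theorem local_eq_model {u : ℂ → Cm 2} {z₀ : ℂ} {V : Set ℂ} (hV : IsOpen V) (hz : z₀ ∈ V)
    (hu : DifferentiableOn ℂ u V) (hd : deriv u z₀ ≠ 0) :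
    ∃ (W : Set ℂ) (O : Set (Cm 2)) (L : Cm 2 → ℂ), IsOpen W ∧ z₀ ∈ W ∧ W ⊆ V ∧ IsOpen O ∧
      DifferentiableOn ℂ L O ∧ (∀ y ∈ O, fderiv ℂ L y ≠ 0) ∧ (∀ z ∈ W, u z ∈ O ∧ L (u z) = 0) ∧
      ∀ y ∈ O, L y = 0 → ∃ z ∈ W, u z = y := by
  obtain ⟨i, hi⟩ : ∃ i, deriv u z₀ i ≠ 0 := by
    by_contra h
    push Not at h
    exact hd (funext h)
  have hui : ∀ j, DifferentiableOn ℂ (fun z => u z j) V := fun j =>
    (differentiableOn_pi.1 hu) j
  have hdi : deriv (fun z => u z i) z₀ ≠ 0 := by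
    have h1 : HasDerivAt u (deriv u z₀) z₀ := (hu.differentiableAt (hV.mem_nhds hz)).hasDerivAt
    have h2 := (hasDerivAt_pi.1 h1) i
    rw [h2.deriv]
    exact hi
  obtain ⟨W, T, b, hWo, hzW, hWV, hTo, hb, hW, hT⟩ := local_inverse hV hz (hui i) hdi
  let j : Fin 2 := i + 1
  have hij : ∀ k : Fin 2, k = i ∨ k = j := by
    intro k
    fin_cases i <;> fin_cases k <;> simp [j]
  have hji : j ≠ i := by
    fin_cases i <;> simp [j]
  let O : Set (Cm 2) := {y | y i ∈ T}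
  have hO : IsOpen O := hTo.preimage (continuous_apply i)
  let h : ℂ → ℂ := fun t => u (b t) j
  have hh : DifferentiableOn ℂ h T := by
    refine (hui j).comp hb ?_
    intro t ht
    exact hWV (hT t ht).1
  let L : Cm 2 → ℂ := fun y => y j - h (y i)
  have hpr : ∀ k, Differentiable ℂ (fun y : Cm 2 => y k) := fun k =>
    (ContinuousLinearMap.proj (R := ℂ) (φ := fun _ : Fin 2 => ℂ) k).differentiable
  have hL : DifferentiableOn ℂ L O := by
    refine (hpr j).differentiableOn.sub (hh.comp (hpr i).differentiableOn ?_)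
    intro y hy
    exact hy
  refine ⟨W, O, L, hWo, hzW, hWV, hO, hL, ?_, ?_, ?_⟩
  · intro y hy h0
    -- evaluate at the coordinate vector `e_j`
    have h1 : DifferentiableAt ℂ L y := hL.differentiableAt (hO.mem_nhds hy)
    have h2 : HasDerivAt (fun t : ℂ => L (y + t • Pi.single j 1)) 1 0 := by
      have h3 : (fun t : ℂ => L (y + t • Pi.single j 1)) = fun t => y j + t - h (y i) := by
        funext t
        simp [L, hji.symm]
      rw [h3]
      simpa using ((hasDerivAt_id (0 : ℂ)).const_add (y j)).sub_const (h (y i))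
    have h4 : HasDerivAt (fun t : ℂ => L (y + t • Pi.single j 1))
        ((fderiv ℂ L y) (Pi.single j 1)) 0 := by
      have h5 : HasDerivAt (fun t : ℂ => y + t • (Pi.single j 1 : Cm 2)) (Pi.single j 1) 0 := by
        simpa using ((hasDerivAt_id (0 : ℂ)).smul_const (Pi.single j 1 : Cm 2)).const_add y
      have h6 : HasFDerivAt L (fderiv ℂ L y) (y + (0 : ℂ) • (Pi.single j 1 : Cm 2)) := by
        simpa using h1.hasFDerivAt
      exact h6.comp_hasDerivAt 0 h5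
    have h7 := h2.unique h4
    rw [h0] at h7
    simp at h7
  · intro z hz
    refine ⟨(hW z hz).1, ?_⟩
    change u z j - u (b (u z i)) j = 0
    rw [(hW z hz).2, sub_self]
  · intro y hy h0
    refine ⟨b (y i), (hT _ hy).1, ?_⟩
    funext k
    rcases hij k with rfl | hk
    · exact (hT _ hy).2
    · rw [hk]
      change y j - u (b (y i)) j = 0 at h0
      exact (sub_eq_zero.1 h0).symm

section Manifold

variable {M : Type*} [TopologicalSpace M] [ChartedSpace (Cm 2) M]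

theorem chart_mdiff [IsManifold 𝓘(ℂ, Cm 2) ω M] {e : OpenPartialHomeomorph M (Cm 2)}
    (he : e ∈ atlas (Cm 2) M) : e.MDifferentiable 𝓘(ℂ, Cm 2) 𝓘(ℂ, Cm 2) := by
  have : IsManifold 𝓘(ℂ, Cm 2) 1 M := IsManifold.of_le (n := ω) le_top
  exact mdifferentiable_of_mem_atlas he

theorem EmbP1.differentiableOn_chart [IsManifold 𝓘(ℂ, Cm 2) ω M] (φ : EmbP1 M)
    {e : OpenPartialHomeomorph M (Cm 2)} (he : e ∈ atlas (Cm 2) M) :
    DifferentiableOn ℂ (fun z => e (φ.f₀ z)) (φ.f₀ ⁻¹' e.source) := by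
  intro z hz
  have h1 : MDifferentiableAt 𝓘(ℂ) 𝓘(ℂ, Cm 2) (e ∘ φ.f₀) z :=
    MDifferentiableAt.comp z ((chart_mdiff he).mdifferentiableAt hz) (φ.holo₀ z)
  exact (mdifferentiableAt_iff_differentiableAt.1 h1).differentiableWithinAt

theorem EmbP1.deriv_chart_ne [IsManifold 𝓘(ℂ, Cm 2) ω M] (φ : EmbP1 M)
    {e : OpenPartialHomeomorph M (Cm 2)} (he : e ∈ atlas (Cm 2) M) {z : ℂ}
    (hz : φ.f₀ z ∈ e.source) : deriv (fun z => e (φ.f₀ z)) z ≠ 0 := by
  intro h0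
  have h1 : mfderiv 𝓘(ℂ) 𝓘(ℂ, Cm 2) (e ∘ φ.f₀) z =
      (mfderiv 𝓘(ℂ, Cm 2) 𝓘(ℂ, Cm 2) e (φ.f₀ z)).comp (mfderiv 𝓘(ℂ) 𝓘(ℂ, Cm 2) φ.f₀ z) :=
    mfderiv_comp z ((chart_mdiff he).mdifferentiableAt hz) (φ.holo₀ z)
  have h2 : Function.Injective (mfderiv 𝓘(ℂ) 𝓘(ℂ, Cm 2) (e ∘ φ.f₀) z) := by
    rw [h1]
    exact ((chart_mdiff he).mfderiv_injective hz).comp (φ.imm₀ z)
  rw [mfderiv_eq_fderiv] at h2
  have h3 : fderiv ℂ (e ∘ φ.f₀) z (1 : ℂ) = 0 := h0
  have h4 : (1 : ℂ) = 0 := h2 (h3.trans (map_zero (fderiv ℂ (e ∘ φ.f₀) z)).symm)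
  exact one_ne_zero h4

/-- **Local equation** of an embedded projective line, near a point of the first plane. -/
theorem EmbP1.local_eq₀ [T2Space M] [IsManifold 𝓘(ℂ, Cm 2) ω M] (φ : EmbP1 M) (z₀ : ℂ) :
    ∃ (U : Set M) (l : M → ℂ), IsOpen U ∧ φ.f₀ z₀ ∈ U ∧
      MDifferentiableOn 𝓘(ℂ, Cm 2) 𝓘(ℂ) l U ∧
      (∀ q ∈ U, mfderiv 𝓘(ℂ, Cm 2) 𝓘(ℂ) l q ≠ 0) ∧ ∀ q ∈ U, q ∈ φ.image ↔ l q = 0 := by
  set e := chartAt (Cm 2) (φ.f₀ z₀) with he
  have hea : e ∈ atlas (Cm 2) M := chart_mem_atlas _ _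
  have hz₀ : φ.f₀ z₀ ∈ e.source := mem_chart_source _ _
  have hVo : IsOpen (φ.f₀ ⁻¹' e.source) := e.open_source.preimage φ.holo₀.continuous
  obtain ⟨W, O, L, hWo, hzW, hWV, hO, hL, hL', hW, hO'⟩ :=
    local_eq_model hVo (show z₀ ∈ φ.f₀ ⁻¹' e.source from hz₀) (φ.differentiableOn_chart hea)
      (φ.deriv_chart_ne hea hz₀)
  obtain ⟨K, hK, hzK, hKs⟩ := φ.exists_compact_compl z₀ hWo hzW
  let U : Set M := (e.source ∩ e ⁻¹' O) ∩ Kᶜ
  have hU : IsOpen U := (e.isOpen_inter_preimage hO).inter hK.isClosed.isOpen_compl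
  have hUO : ∀ q ∈ U, e q ∈ O := fun q hq => hq.1.2
  have hUs : ∀ q ∈ U, q ∈ e.source := fun q hq => hq.1.1
  have hLd : ∀ q ∈ U, DifferentiableAt ℂ L (e q) := fun q hq =>
    hL.differentiableAt (hO.mem_nhds (hUO q hq))
  refine ⟨U, fun q => L (e q), hU, ⟨⟨hz₀, (hW z₀ hzW).1⟩, hzK⟩, ?_, ?_, ?_⟩
  · intro q hq
    have h1 : MDifferentiableAt 𝓘(ℂ, Cm 2) 𝓘(ℂ) (L ∘ e) q :=
      MDifferentiableAt.comp q (hLd q hq).mdifferentiableAt
        ((chart_mdiff hea).mdifferentiableAt (hUs q hq))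
    exact h1.mdifferentiableWithinAt
  · intro q hq h0
    have h1 : mfderiv 𝓘(ℂ, Cm 2) 𝓘(ℂ) (L ∘ e) q =
        (mfderiv 𝓘(ℂ, Cm 2) 𝓘(ℂ) L (e q)).comp (mfderiv 𝓘(ℂ, Cm 2) 𝓘(ℂ, Cm 2) e q) :=
      mfderiv_comp q (hLd q hq).mdifferentiableAt
        ((chart_mdiff hea).mdifferentiableAt (hUs q hq))
    have h2 : mfderiv 𝓘(ℂ, Cm 2) 𝓘(ℂ) (L ∘ e) q = 0 := h0
    rw [h1] at h2
    apply hL' (e q) (hUO q hq)
    rw [← mfderiv_eq_fderiv]
    ext v
    obtain ⟨w, hw⟩ := (chart_mdiff hea).mfderiv_surjective (hUs q hq) v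
    rw [← hw]
    exact congrFun (congrArg DFunLike.coe h2) w
  · intro q hq
    constructor
    · intro hqi
      rcases hKs hqi with ⟨z, hz, rfl⟩ | hqK
      · exact (hW z hz).2
      · exact absurd hqK hq.2
    · intro h0
      obtain ⟨z, hz, h1⟩ := hO' (e q) (hUO q hq) h0
      have h2 : φ.f₀ z ∈ e.source := hWV hz
      have h3 : φ.f₀ z = q := e.injOn h2 (hUs q hq) h1
      rw [← h3]
      exact φ.mem_image_f₀ z

/-- **Local equation** of an embedded projective line. -/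
theorem EmbP1.local_eq [T2Space M] [IsManifold 𝓘(ℂ, Cm 2) ω M] (φ : EmbP1 M) {p : M}
    (hp : p ∈ φ.image) :
    ∃ (U : Set M) (l : M → ℂ), IsOpen U ∧ p ∈ U ∧
      MDifferentiableOn 𝓘(ℂ, Cm 2) 𝓘(ℂ) l U ∧
      (∀ q ∈ U, mfderiv 𝓘(ℂ, Cm 2) 𝓘(ℂ) l q ≠ 0) ∧ ∀ q ∈ U, q ∈ φ.image ↔ l q = 0 := by
  rcases hp with ⟨z, rfl⟩ | rfl
  · exact φ.local_eq₀ z
  · have := φ.swap.local_eq₀ 0
    rwa [φ.image_swap] at this

end Manifold

end Vale.Agent.P267.H338
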