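import Vale.Agent.P267.H338.CountCore
import Vale.Agent.P267.H821.Section
import Vale.Agent.P267.H306.Inv
import Vale.Agent.P267.H399.LBCurv
import Vale.Agent.P267.H332.Pair.IntAx
import Vale.Agent.P267.H857.Bridge4

/-!
# P267, area D: the facts used in the count hold on every surface
-/

open Set Filter Topology
open scoped Manifold ContDiff ComplexConjugate
open Vale.Agent.P267.FL Vale.Agent.P267.H158 Vale.Agent.P267.XT Vale.Agent.P267.H757
  Vale.Agent.P267.H332

noncomputable section

namespace Vale.Agent.P267.H338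

section conn

variable {M : Type} [TopologicalSpace M] [ChartedSpace C2 M]
  {ι : Type} [Fintype ι] [DecidableEq ι]

/-- the one-form `a - ā` -/
def connF (a : M → Fin 2 → ℂ) : OneF M := ⟨fun y i => -conj (a y i), a⟩

theorem chern_eq_add (L : LB M ι) (a : M → Fin 2 → ℂ) : L.chern a = L.curv + (connF a).d := rfl

theorem connF_smooth {a : M → Fin 2 → ℂ} (ha : Reg1 ∞ 0 a) : (connF a).Smooth where
  s10 := by
    intro e he
    rw [contDiffOn_pi]
    intro i
    have h := contDiffOn_pi.1 (ha e he) i
    refine ((Complex.conjCLE.contDiff (n := ∞)).comp_contDiffOn h).neg.congr fun z _ => ?_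
    simp [loc10, loc1, connF]
  s01 := ha

/-- the Chern form and the curvature of the projector are cohomologous -/
theorem intX_chern_wedge [IsManifold 𝓘(ℂ, C2) ω M] [T2Space M] [SigmaCompactSpace M] {L : LB M ι}
    {a : M → Fin 2 → ℂ} (ha : L.IsHol a) {η : TwoF M} (hη : η ∈ HC M) :
    intX ((L.chern a).wedge η) = intX (L.curv.wedge η) := by
  have hI : IntAx M := intAx
  have hc := L.curv_smooth
  have hs := H857.smooth_d (connF_smooth ha.smooth)
  have h1 : (L.chern a).wedge η = fun x => L.curv.wedge η x + (connF a).d.wedge η x := by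
    funext x
    rw [chern_eq_add]
    simp only [TwoF.wedge, TwoF.f20_add, TwoF.f11_add, TwoF.f02_add, Pi.add_apply,
      Matrix.add_apply]
    ring
  have h2 : intX ((connF a).d.wedge η) = 0 :=
    intX_dA_wedge (connF_smooth ha.smooth).c1 (TwoF.Smooth.c1 hη.1) hη.2.1 hη.2.2
      fun x hx => Or.inr (eq_zero_of_notMem_supp2 hx)
  rw [h1, hI.add _ _ (reg2_wedge hc hη.1) (reg2_wedge hs hη.1) (hasCompactSupport_wedge _ hη.2.2)
    (hasCompactSupport_wedge _ hη.2.2), h2, add_zero]

theorem countAx [IsManifold 𝓘(ℂ, C2) ω M] [T2Space M] [SigmaCompactSpace M] : CountAx M where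
  int := intAx
  inv g hg b hb hc := H306.intX_comp_homeo g hg (fun e he => (hb e he).of_le (by simp)) hc
  curv _ _ _ L := ⟨L.curv_smooth, L.curv_closed⟩
  nf _ _ _ _ _ _ ha hs hsec h0 hd := H821.lbnf ha hs hsec h0 hd
  chern _ _ _ _ _ ha _ hη := intX_chern_wedge ha hη

end conn

end Vale.Agent.P267.H338
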