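import Vale.Agent.P267.H456.Assembly
import Vale.Agent.P267.H338.CountInst

/-!
# P267, area D: `CountThm`
-/

open Set Filter Topology
open scoped Manifold ContDiff ComplexConjugate
open Vale.Agent.P267.FL Vale.Agent.P267.H158 Vale.Agent.P267.XT

noncomputable section

namespace Vale.Agent.P267.H338

/-- **COUNT** -/
theorem count : Asm.CountThm := by
  intro X _ _ _ _ _ _ n B E i₀ R htriv hdot a α hα
  have hSC : SigmaCompactSpace (Cov B.hh) := sigmaCompact_cov
  exact count_core B.hh countAx (fun i => (E i).ι) (fun i => (E i).L) i₀ R htriv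
    (fun i j k L' h => hdot i j k L' h) a α (fun i => (hα i).hol) (fun i => (hα i).reg)
    (fun i => (hα i).sec) (fun i => (hα i).eq) (fun i => (hα i).dense) (fun i => (hα i).curves)


end Vale.Agent.P267.H338
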