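import Vale.Agent.P267.H338.Ident
import Vale.Agent.P267.H757.NF5
import Vale.Agent.P281.MF.Ext

/-!
# P267, area D: global division of norm functions by the norm functions of curves
-/

open Set Filter Metric Topology
open scoped Manifold ContDiff
open Vale.Agent.P272.K Vale.Agent.P267.H757

noncomputable section

namespace Vale.Agent.P267.H338

theorem EmbP1.isCurve {M : Type*} [TopologicalSpace M] [ChartedSpace (Cm 2) M] [T2Space M]
    [IsManifold 𝓘(ℂ, Cm 2) ω M] (φ : EmbP1 M) : IsCurve (Cm 2) φ.image where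
  isClosed := φ.isClosed_image
  exists_def p hp := by
    obtain ⟨U, l, h1, h2, h3, h4, h5⟩ := φ.local_eq hp
    exact ⟨U, l, h2, h1, h3, fun x hx => (h5 x hx).symm, fun x hx _ => h4 x hx⟩

variable {E : Type*} [NormedAddCommGroup E] [NormedSpace ℂ E] [FiniteDimensional ℂ E]
variable {M : Type*} [TopologicalSpace M] [ChartedSpace E M] [IsManifold 𝓘(ℂ, E) ω M]

/-- `NC` is a norm function of the curve `C`: locally `‖l‖² e^{-φ}` for every local equation. -/
def IsNormOf (E : Type*) [NormedAddCommGroup E] [NormedSpace ℂ E]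
    {M : Type*} [TopologicalSpace M] [ChartedSpace E M] (C : Set M) (NC : M → ℝ) : Prop :=
  ∀ (U : Set M) (l : M → ℂ), IsDef E C U l → ∃ φ : M → ℝ, LocRep E NC U l φ

/-- **Division**: a norm function which vanishes on the curve `C` is divisible by the norm function
of `C`. -/
theorem exists_div {C : Set M} (hC : IsCurve E C) {N NC : M → ℝ} (hN : IsNormFn E N)
    (hNC : IsNormOf E C NC) (h0 : ∀ x ∈ C, N x = 0) :
    ∃ N' : M → ℝ, IsNormFn E N' ∧ ∀ x, N x = NC x * N' x := by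
  classical
  have key : ∀ p : M, ∃ (U : Set M) (q : M → ℂ) (φ : M → ℝ), IsOpen U ∧ p ∈ U ∧
      MDifferentiableOn 𝓘(ℂ, E) 𝓘(ℂ) q U ∧
      (∀ V : Set M, IsOpen V → V ⊆ U → V.Nonempty → ∃ x ∈ V, q x ≠ 0) ∧
      ContMDiffOn 𝓘(ℝ, E) 𝓘(ℝ) ∞ φ U ∧
      ∀ x ∈ U, N x = NC x * (‖q x‖ ^ 2 * Real.exp (-φ x)) := by
    intro p
    obtain ⟨U₁, l, hpU, hd⟩ : ∃ (U : Set M) (l : M → ℂ), p ∈ U ∧ IsDef E C U l := by
      by_cases hp : p ∈ C
      · exact hC.exists_def p hp
      · exact ⟨Cᶜ, _, hp, isDef_compl hC.isClosed⟩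
    obtain ⟨φ₁, hφ₁⟩ := hNC U₁ l hd
    obtain ⟨V, g, ψ, hpV, hg⟩ := hN p
    obtain ⟨q, hq, hqe⟩ := exists_quot_mfd hd hg.isOpen hg.hol (fun x hx _ hxC =>
      (hg.eq_zero_iff hx).1 (h0 x hxC))
    refine ⟨U₁ ∩ V, q, fun x => ψ x - φ₁ x, hd.isOpen.inter hg.isOpen, ⟨hpU, hpV⟩, hq, ?_, ?_, ?_⟩
    · intro W hW hWU hWn
      obtain ⟨x, hx, hgx⟩ := hg.nz W hW (hWU.trans inter_subset_right) hWn
      refine ⟨x, hx, fun hqx => hgx ?_⟩
      rw [hqe x (hWU hx), hqx, mul_zero]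
    · exact (hg.smooth.mono inter_subset_right).sub (hφ₁.smooth.mono inter_subset_left)
    · intro x hx
      rw [hg.eq x hx.2, hφ₁.eq x hx.1, hqe x hx, norm_mul]
      have : Real.exp (-ψ x) = Real.exp (-φ₁ x) * Real.exp (-(ψ x - φ₁ x)) := by
        rw [← Real.exp_add]; congr 1; ring
      rw [this]; ring
  choose U q φ hU hpU hq hnz hφ heq using key
  obtain ⟨N', hN'⟩ := exists_glue U q φ hU hq hnz hφ (fun x => ⟨x, hpU x⟩) hC.dense_compl
    (fun i j x hi hj hx => by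
      have h1 := heq i x hi
      have h2 := heq j x hj
      obtain ⟨φ₂, hφ₂⟩ := hNC _ _ (isDef_compl (E := E) hC.isClosed)
      have h3 : NC x ≠ 0 := (hφ₂.ne_zero_iff hx).2 one_ne_zero
      rw [h1] at h2
      exact mul_left_cancel₀ h3 h2)
  refine ⟨N', fun p => ⟨U p, q p, φ p, hpU p, hN' p⟩, fun x => ?_⟩
  rw [heq x x (hpU x), (hN' x).eq x (hpU x)]

omit [FiniteDimensional ℂ E] in
/-- A holomorphic disc through `p` on which the norm function `N` vanishes to finite order. -/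
theorem exists_disc {N : M → ℝ} (hN : IsNormFn E N) (p : M) :
    ∃ (v : E) (n : ℕ) (a : ℝ), 0 < a ∧
      ∀ᶠ t in 𝓝 (0 : ℂ), a * ‖t‖ ^ n ≤ N ((chartAt E p).symm (chartAt E p p + t • v)) := by
  have hM1 : IsManifold 𝓘(ℂ, E) 1 M := IsManifold.of_le (n := ω) le_top
  set e := chartAt E p with hedef
  have he1 : e ∈ IsManifold.maximalAtlas 𝓘(ℂ, E) 1 M := IsManifold.chart_mem_maximalAtlas p
  have hps : p ∈ e.source := mem_chart_source E p
  obtain ⟨U, g, φ, hpU, hg⟩ := hN p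
  have hgd := differentiableOn_chart he1 hg.hol
  have hO : IsOpen (e.target ∩ e.symm ⁻¹' U) := e.isOpen_inter_preimage_symm hg.isOpen
  have hep : e p ∈ e.target ∩ e.symm ⁻¹' U :=
    ⟨e.map_source hps, by rw [mem_preimage, e.left_inv hps]; exact hpU⟩
  obtain ⟨ρ, hρ, hball⟩ := Metric.isOpen_iff.1 hO _ hep
  -- a point where `g` does not vanish
  obtain ⟨x, hx, hgx⟩ := hg.nz (e.source ∩ e ⁻¹' (ball (e p) ρ) ∩ U)
    ((e.isOpen_inter_preimage isOpen_ball).inter hg.isOpen) inter_subset_right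
    ⟨p, ⟨hps, mem_ball_self hρ⟩, hpU⟩
  set v : E := e x - e p with hv
  set D : Set ℂ := (fun t : ℂ => e p + t • v) ⁻¹' ball (e p) ρ with hD
  have hlc : Differentiable ℂ (fun t : ℂ => e p + t • v) := by fun_prop
  have hDo : IsOpen D := isOpen_ball.preimage hlc.continuous
  have hD0 : (0 : ℂ) ∈ D := by simp [hD, hρ]
  have hD1 : (1 : ℂ) ∈ D := by
    have : e p + (1 : ℂ) • v = e x := by rw [hv]; simp
    rw [hD, mem_preimage, this]
    exact hx.1.2
  have hDc : Convex ℝ D := by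
    have h1 : D = (((LinearMap.toSpanSingleton ℂ E v).restrictScalars ℝ) : ℂ →ₗ[ℝ] E) ⁻¹'
        ball (0 : E) ρ := by
      ext t
      simp [hD, mem_ball, dist_eq_norm]
    rw [h1]
    exact (convex_ball (0 : E) ρ).linear_preimage _
  set G : ℂ → ℂ := fun t => g (e.symm (e p + t • v)) with hG
  have hGd : DifferentiableOn ℂ G D := hgd.comp hlc.differentiableOn fun t ht => hball ht
  have hGan : AnalyticOnNhd ℂ G D := hGd.analyticOnNhd hDo
  have hG1 : G 1 ≠ 0 := by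
    have h1 : e p + (1 : ℂ) • v = e x := by rw [hv]; simp
    rw [hG]
    simp only [h1, e.left_inv hx.1.1]
    exact hgx
  have hne : ¬ ∀ᶠ t in 𝓝 (0 : ℂ), G t = 0 := fun h0 =>
    hG1 (hGan.eqOn_zero_of_preconnected_of_eventuallyEq_zero hDc.isPreconnected hD0 h0 hD1)
  obtain ⟨n, u, hu, hu0, hGu⟩ := ((hGan 0 hD0).exists_eventuallyEq_pow_smul_nonzero_iff).2 hne
  -- the path is continuous
  have hcc : ContinuousAt (fun t : ℂ => e.symm (e p + t • v)) 0 := by
    have h1 : ContinuousAt e.symm (e p + (0 : ℂ) • v) := by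
      simpa using e.continuousAt_symm (e.map_source hps)
    exact ContinuousAt.comp (f := fun t : ℂ => e p + t • v) h1 hlc.continuous.continuousAt
  have hc0 : e.symm (e p + (0 : ℂ) • v) = p := by simp [e.left_inv hps]
  have hφc : ContinuousAt (fun t : ℂ => φ (e.symm (e p + t • v))) 0 := by
    have h1 : ContinuousAt φ (e.symm (e p + (0 : ℂ) • v)) := by
      rw [hc0]
      exact hg.smooth.continuousOn.continuousAt (hg.isOpen.mem_nhds hpU)
    exact ContinuousAt.comp (f := fun t : ℂ => e.symm (e p + t • v)) h1 hcc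
  have hev1 : ∀ᶠ t in 𝓝 (0 : ℂ), ‖u 0‖ / 2 < ‖u t‖ :=
    hu.continuousAt.norm.eventually (lt_mem_nhds (half_lt_self (norm_pos_iff.2 hu0)))
  have hev2 : ∀ᶠ t in 𝓝 (0 : ℂ), φ (e.symm (e p + t • v)) < φ p + 1 := by
    have h1 := hφc.eventually (gt_mem_nhds (show φ (e.symm (e p + (0 : ℂ) • v)) < φ p + 1 by
      rw [hc0]; linarith))
    exact h1
  refine ⟨v, 2 * n, (‖u 0‖ / 2) ^ 2 * Real.exp (-(φ p + 1)), by positivity, ?_⟩
  filter_upwards [hev1, hev2, hGu, hDo.mem_nhds hD0] with t h1 h2 h3 h4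
  have h5 : e.symm (e p + t • v) ∈ U := (hball h4).2
  rw [hg.eq _ h5]
  have h6 : g (e.symm (e p + t • v)) = t ^ n * u t := by
    have := h3
    simpa [hG] using this
  rw [h6, norm_mul, norm_pow, mul_pow]
  have h7 : Real.exp (-(φ p + 1)) ≤ Real.exp (-φ (e.symm (e p + t • v))) :=
    Real.exp_le_exp.2 (by linarith)
  have h8 : (‖u 0‖ / 2) ^ 2 ≤ ‖u t‖ ^ 2 := by
    apply pow_le_pow_left₀ (by positivity) h1.le
  calc (‖u 0‖ / 2) ^ 2 * Real.exp (-(φ p + 1)) * ‖t‖ ^ (2 * n)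
      ≤ ‖u t‖ ^ 2 * Real.exp (-φ (e.symm (e p + t • v))) * ‖t‖ ^ (2 * n) := by gcongr
    _ = (‖t‖ ^ n) ^ 2 * ‖u t‖ ^ 2 * Real.exp (-φ (e.symm (e p + t • v))) := by
        rw [← pow_mul, mul_comm n 2]; ring

omit [FiniteDimensional ℂ E] in
/-- On every holomorphic disc through a zero, a norm function is `O(‖t‖²)`. -/
theorem exists_bound {N : M → ℝ} (hN : IsNormFn E N) (p : M) (hp : N p = 0) (v : E) :
    ∃ b : ℝ, 0 ≤ b ∧
      ∀ᶠ t in 𝓝 (0 : ℂ), N ((chartAt E p).symm (chartAt E p p + t • v)) ≤ b * ‖t‖ ^ 2 := by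
  have hM1 : IsManifold 𝓘(ℂ, E) 1 M := IsManifold.of_le (n := ω) le_top
  set e := chartAt E p with hedef
  have he1 : e ∈ IsManifold.maximalAtlas 𝓘(ℂ, E) 1 M := IsManifold.chart_mem_maximalAtlas p
  have hps : p ∈ e.source := mem_chart_source E p
  obtain ⟨U, g, φ, hpU, hg⟩ := hN p
  have hgd := differentiableOn_chart he1 hg.hol
  have hO : IsOpen (e.target ∩ e.symm ⁻¹' U) := e.isOpen_inter_preimage_symm hg.isOpen
  have hep : e p ∈ e.target ∩ e.symm ⁻¹' U :=
    ⟨e.map_source hps, by rw [mem_preimage, e.left_inv hps]; exact hpU⟩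
  have hlc : Differentiable ℂ (fun t : ℂ => e p + t • v) := by fun_prop
  have hc0 : e.symm (e p + (0 : ℂ) • v) = p := by simp [e.left_inv hps]
  have hcc : ContinuousAt (fun t : ℂ => e.symm (e p + t • v)) 0 := by
    have h1 : ContinuousAt e.symm (e p + (0 : ℂ) • v) := by
      simpa using e.continuousAt_symm (e.map_source hps)
    exact ContinuousAt.comp (f := fun t : ℂ => e p + t • v) h1 hlc.continuous.continuousAt
  have hφc : ContinuousAt (fun t : ℂ => φ (e.symm (e p + t • v))) 0 := by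
    have h1 : ContinuousAt φ (e.symm (e p + (0 : ℂ) • v)) := by
      rw [hc0]
      exact hg.smooth.continuousOn.continuousAt (hg.isOpen.mem_nhds hpU)
    exact ContinuousAt.comp (f := fun t : ℂ => e.symm (e p + t • v)) h1 hcc
  have hG : DifferentiableAt ℂ (fun t : ℂ => g (e.symm (e p + t • v))) 0 := by
    have h1 : DifferentiableAt ℂ (g ∘ e.symm) (e p + (0 : ℂ) • v) := by
      have := hgd.differentiableAt (hO.mem_nhds hep)
      simpa using this
    exact DifferentiableAt.comp (g := g ∘ e.symm) (f := fun t : ℂ => e p + t • v) (0 : ℂ) h1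
      hlc.differentiableAt
  have hG0 : g (e.symm (e p + (0 : ℂ) • v)) = 0 := by
    rw [hc0]; exact (hg.eq_zero_iff hpU).1 hp
  have hO' : (fun t : ℂ => g (e.symm (e p + t • v))) =O[𝓝 0] fun t => t := by
    have := hG.isBigO_sub
    simpa only [hG0, sub_zero] using this
  obtain ⟨c, hc⟩ := hO'.bound
  have hev2 : ∀ᶠ t in 𝓝 (0 : ℂ), φ p - 1 < φ (e.symm (e p + t • v)) := by
    have h1 := hφc.eventually (lt_mem_nhds (show φ p - 1 < φ (e.symm (e p + (0 : ℂ) • v)) by
      rw [hc0]; linarith))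
    exact h1
  have hD : ∀ᶠ t in 𝓝 (0 : ℂ), e p + t • v ∈ e.target ∩ e.symm ⁻¹' U := by
    have h1 : ContinuousAt (fun t : ℂ => e p + t • v) 0 := hlc.continuous.continuousAt
    refine h1.eventually (hO.mem_nhds ?_)
    simpa using hep
  refine ⟨c ^ 2 * Real.exp (-(φ p - 1)), by positivity, ?_⟩
  filter_upwards [hc, hev2, hD] with t h1 h2 h4
  rw [hg.eq _ h4.2]
  have h7 : Real.exp (-φ (e.symm (e p + t • v))) ≤ Real.exp (-(φ p - 1)) :=
    Real.exp_le_exp.2 (by linarith)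
  have h8 : ‖g (e.symm (e p + t • v))‖ ^ 2 ≤ c ^ 2 * ‖t‖ ^ 2 := by
    rw [← mul_pow]
    exact pow_le_pow_left₀ (norm_nonneg _) h1 2
  calc ‖g (e.symm (e p + t • v))‖ ^ 2 * Real.exp (-φ (e.symm (e p + t • v)))
      ≤ (c ^ 2 * ‖t‖ ^ 2) * Real.exp (-(φ p - 1)) := by gcongr
    _ = c ^ 2 * Real.exp (-(φ p - 1)) * ‖t‖ ^ 2 := by ring

/-- A norm function is divisible by a maximal power of the norm function of the curve `C`; the
quotient does not vanish identically on `C`. -/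
theorem exists_max_pow {C : Set M} (hC : IsCurve E C) (hne : C.Nonempty) {N NC : M → ℝ}
    (hN : IsNormFn E N) (hNC : IsNormOf E C NC) :
    ∃ (m : ℕ) (N' : M → ℝ), IsNormFn E N' ∧ (∀ x, N x = NC x ^ m * N' x) ∧
      ∃ x ∈ C, N' x ≠ 0 := by
  by_contra hcon
  push Not at hcon
  have hall : ∀ m : ℕ, ∃ N' : M → ℝ, IsNormFn E N' ∧ ∀ x, N x = NC x ^ m * N' x := by
    intro m
    induction m with
    | zero => exact ⟨N, hN, fun x => by simp⟩
    | succ m ih =>
      obtain ⟨N', hN', h1⟩ := ih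
      obtain ⟨N'', hN'', h2⟩ := exists_div hC hN' hNC (hcon m N' hN' h1)
      exact ⟨N'', hN'', fun x => by rw [h1, h2]; ring⟩
  obtain ⟨p, hp⟩ := hne
  obtain ⟨v, n, a, ha, hev⟩ := exists_disc hN p
  have hNCn := isNormFn_of_curve hC hNC
  obtain ⟨b, hb, hevb⟩ := exists_bound hNCn.1 p ((hNCn.2 p).2 hp) v
  obtain ⟨N', hN', hNN'⟩ := hall (n + 1)
  -- `N'` is bounded along the disc
  set e := chartAt E p with hedef
  have hps : p ∈ e.source := mem_chart_source E p
  have hlc : Continuous (fun t : ℂ => e p + t • v) := by fun_prop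
  have hcc : ContinuousAt (fun t : ℂ => N' (e.symm (e p + t • v))) 0 := by
    have h1 : ContinuousAt e.symm (e p + (0 : ℂ) • v) := by
      simpa using e.continuousAt_symm (e.map_source hps)
    exact hN'.continuous.continuousAt.comp
      (ContinuousAt.comp (f := fun t : ℂ => e p + t • v) h1 hlc.continuousAt)
  have hevN : ∀ᶠ t in 𝓝 (0 : ℂ), N' (e.symm (e p + t • v)) < N' p + 1 := by
    have h1 := hcc.eventually (gt_mem_nhds (show N' (e.symm (e p + (0 : ℂ) • v)) < N' p + 1 by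
      simp [e.left_inv hps]))
    exact h1
  have hp0 : 0 ≤ N' p := hN'.nonneg p
  -- the limit `t → 0`
  have hlim : Tendsto (fun t : ℂ => b ^ (n + 1) * (N' p + 1) * ‖t‖ ^ (n + 2)) (𝓝[≠] 0) (𝓝 0) := by
    have h1 : Continuous (fun t : ℂ => b ^ (n + 1) * (N' p + 1) * ‖t‖ ^ (n + 2)) := by fun_prop
    have h2 := h1.tendsto 0
    simp only [norm_zero, ne_eq, Nat.add_eq_zero_iff, OfNat.ofNat_ne_zero, and_false,
      not_false_eq_true, zero_pow, mul_zero] at h2
    exact h2.mono_left nhdsWithin_le_nhds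
  have hev3 : ∀ᶠ t in 𝓝[≠] (0 : ℂ), a ≤ b ^ (n + 1) * (N' p + 1) * ‖t‖ ^ (n + 2) := by
    filter_upwards [nhdsWithin_le_nhds hev, nhdsWithin_le_nhds hevb, nhdsWithin_le_nhds hevN,
      self_mem_nhdsWithin] with t h1 h2 h3 h4
    have ht : 0 < ‖t‖ := norm_pos_iff.2 h4
    rw [hNN'] at h1
    have h5 : 0 ≤ NC (e.symm (e p + t • v)) := hNCn.1.nonneg _
    have h6 : 0 ≤ N' (e.symm (e p + t • v)) := hN'.nonneg _
    have h7 : a * ‖t‖ ^ n ≤ (b * ‖t‖ ^ 2) ^ (n + 1) * (N' p + 1) :=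
      h1.trans (by gcongr)
    have h8 : (b * ‖t‖ ^ 2) ^ (n + 1) * (N' p + 1) =
        (b ^ (n + 1) * (N' p + 1) * ‖t‖ ^ (n + 2)) * ‖t‖ ^ n := by ring
    rw [h8] at h7
    exact le_of_mul_le_mul_right h7 (by positivity)
  have h9 : a ≤ 0 := ge_of_tendsto hlim hev3
  linarith

/-- **Factorisation**: divide by all curves of a finite family. -/
theorem exists_factor {ι : Type*} (F : Finset ι) (C : ι → Set M) (hC : ∀ i ∈ F, IsCurve E (C i))
    (hne : ∀ i ∈ F, (C i).Nonempty) {NC : ι → M → ℝ} (hNC : ∀ i ∈ F, IsNormOf E (C i) (NC i))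
    {N : M → ℝ} (hN : IsNormFn E N) :
    ∃ (m : ι → ℕ) (N' : M → ℝ), IsNormFn E N' ∧ (∀ x, N x = (∏ i ∈ F, NC i x ^ m i) * N' x) ∧
      ∀ i ∈ F, ∃ x ∈ C i, N' x ≠ 0 := by
  classical
  induction F using Finset.induction_on generalizing N with
  | empty => exact ⟨fun _ => 0, N, hN, fun x => by simp, by simp⟩
  | insert i F hi ih =>
    obtain ⟨k, N₁, hN₁, h1, x₁, hx₁, hx₁'⟩ := exists_max_pow (hC i (by simp)) (hne i (by simp)) hN
      (hNC i (by simp))
    obtain ⟨m, N', hN', h2, h3⟩ := ih (fun j hj => hC j (by simp [hj]))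
      (fun j hj => hne j (by simp [hj])) (fun j hj => hNC j (by simp [hj])) hN₁
    refine ⟨Function.update m i k, N', hN', fun x => ?_, fun j hj => ?_⟩
    · rw [h1, h2, Finset.prod_insert hi, Function.update_self, mul_assoc]
      congr 2
      refine Finset.prod_congr rfl fun j hj => ?_
      have hji : j ≠ i := fun h => hi (by rw [← h]; exact hj)
      rw [Function.update_of_ne hji]
    · rcases Finset.mem_insert.1 hj with rfl | hj
      · refine ⟨x₁, hx₁, fun h0 => hx₁' ?_⟩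
        rw [h2, h0, mul_zero]
      · exact h3 j hj

end Vale.Agent.P267.H338

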