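import Vale.Agent.P267.H338.LocEq

/-!
# P267, area D: identity theorem for curves, translates, images
-/

open scoped Manifold ContDiff Topology
open Vale.Agent.P272.K Set Metric

noncomputable section

namespace Vale.Agent.P267.H338

variable {M : Type*} [TopologicalSpace M] [ChartedSpace (Cm 2) M]

/-- `C` is a closed analytic hypersurface (zero set of one holomorphic function near each of its
points). -/
structure IsHypersurface (C : Set M) : Prop where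
  closed : IsClosed C
  eq : ∀ p ∈ C, ∃ (U : Set M) (l : M → ℂ), IsOpen U ∧ p ∈ U ∧
      MDifferentiableOn 𝓘(ℂ, Cm 2) 𝓘(ℂ) l U ∧ ∀ q ∈ U, q ∈ C ↔ l q = 0

theorem EmbP1.isHypersurface [T2Space M] [IsManifold 𝓘(ℂ, Cm 2) ω M] (φ : EmbP1 M) :
    IsHypersurface φ.image where
  closed := φ.isClosed_image
  eq p hp := by
    obtain ⟨U, l, h1, h2, h3, -, h4⟩ := φ.local_eq hp
    exact ⟨U, l, h1, h2, h3, h4⟩

theorem differentiableOn_comp {l : M → ℂ} {U : Set M} (hU : IsOpen U)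
    (hl : MDifferentiableOn 𝓘(ℂ, Cm 2) 𝓘(ℂ) l U) {g : ℂ → M}
    (hg : MDifferentiable 𝓘(ℂ) 𝓘(ℂ, Cm 2) g) :
    DifferentiableOn ℂ (fun z => l (g z)) (g ⁻¹' U) := by
  intro z hz
  have h1 : MDifferentiableAt 𝓘(ℂ) 𝓘(ℂ) (l ∘ g) z :=
    MDifferentiableAt.comp z ((hl (g z) hz).mdifferentiableAt (hU.mem_nhds hz)) (hg z)
  exact (mdifferentiableAt_iff_differentiableAt.1 h1).differentiableWithinAt

/-- **Identity theorem**: the interior of the preimage of a hypersurface under a holomorphic curve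
is closed. -/
theorem IsHypersurface.isClosed_interior {C : Set M} (hC : IsHypersurface C) {g : ℂ → M}
    (hg : MDifferentiable 𝓘(ℂ) 𝓘(ℂ, Cm 2) g) : IsClosed (interior (g ⁻¹' C)) := by
  have hA : IsClosed (g ⁻¹' C) := hC.closed.preimage hg.continuous
  rw [← closure_subset_iff_isClosed]
  intro z hz
  have hzA : z ∈ g ⁻¹' C := hA.closure_subset (closure_mono interior_subset hz)
  obtain ⟨U, l, hU, hpU, hl, hlC⟩ := hC.eq (g z) hzA
  obtain ⟨r, hr, hB⟩ := Metric.isOpen_iff.1 (hU.preimage hg.continuous) z hpU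
  have han : AnalyticOnNhd ℂ (fun z => l (g z)) (ball z r) :=
    ((differentiableOn_comp hU hl hg).mono hB).analyticOnNhd isOpen_ball
  obtain ⟨w, hwB, hwA⟩ := mem_closure_iff.1 hz (ball z r) isOpen_ball (mem_ball_self hr)
  have hev : (fun z => l (g z)) =ᶠ[𝓝 w] 0 := by
    filter_upwards [isOpen_interior.mem_nhds hwA, isOpen_ball.mem_nhds hwB] with x hx hxB
    exact (hlC (g x) (hB hxB)).1 (show x ∈ g ⁻¹' C from interior_subset hx)
  have hz0 := han.eqOn_zero_of_preconnected_of_eventuallyEq_zero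
    (convex_ball z r).isPreconnected hwB hev
  refine mem_interior.2 ⟨ball z r, ?_, isOpen_ball, mem_ball_self hr⟩
  intro x hx
  exact (hlC (g x) (hB hx)).2 (hz0 hx)

/-- A holomorphic curve either lies in the hypersurface, or it meets it in a closed discrete set of
parameters. -/
theorem IsHypersurface.subset_or {C : Set M} (hC : IsHypersurface C) {g : ℂ → M}
    (hg : MDifferentiable 𝓘(ℂ) 𝓘(ℂ, Cm 2) g) :
    g ⁻¹' C = univ ∨ interior (g ⁻¹' C) = ∅ := by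
  have h : IsClopen (interior (g ⁻¹' C)) := ⟨hC.isClosed_interior hg, isOpen_interior⟩
  rcases isClopen_iff.1 h with h0 | h1
  · exact Or.inr h0
  · left
    exact Set.eq_univ_of_univ_subset (h1 ▸ interior_subset)

theorem EmbP1.subset_of_f₀ [T2Space M] (φ : EmbP1 M) {C : Set M} (hC : IsClosed C)
    (h : φ.f₀ ⁻¹' C = univ) : φ.image ⊆ C := by
  have h0 : ∀ z, φ.f₀ z ∈ C := fun z => by
    have : z ∈ φ.f₀ ⁻¹' C := by rw [h]; trivial
    exact this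
  rintro _ (⟨z, rfl⟩ | rfl)
  · exact h0 z
  · -- `f₁ 0` is the limit of `f₁ w = f₀ w⁻¹`
    have h1 : Filter.Tendsto φ.f₁ (𝓝[≠] 0) (𝓝 (φ.f₁ 0)) :=
      (φ.holo₁.continuous.tendsto 0).mono_left nhdsWithin_le_nhds
    refine hC.mem_of_tendsto h1 ?_
    filter_upwards [self_mem_nhdsWithin] with w hw
    rw [φ.glue' w hw]
    exact h0 _

/-- image of an embedded projective line by an injective immersion -/
def EmbP1.map {M' : Type*} [TopologicalSpace M'] [ChartedSpace (Cm 2) M'] (φ : EmbP1 M)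
    (γ : M → M') (hγ : MDifferentiable 𝓘(ℂ, Cm 2) 𝓘(ℂ, Cm 2) γ) (hinj : Function.Injective γ)
    (himm : ∀ x, Function.Injective (mfderiv 𝓘(ℂ, Cm 2) 𝓘(ℂ, Cm 2) γ x)) : EmbP1 M' where
  f₀ := γ ∘ φ.f₀
  f₁ := γ ∘ φ.f₁
  holo₀ := hγ.comp φ.holo₀
  holo₁ := hγ.comp φ.holo₁
  glue z hz := congrArg γ (φ.glue z hz)
  inj := hinj.comp φ.inj
  ninf := by
    rintro ⟨z, hz⟩
    exact φ.ninf ⟨z, hinj hz⟩
  imm₀ z := by
    rw [mfderiv_comp z (hγ _) (φ.holo₀ z)]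
    exact (himm _).comp (φ.imm₀ z)
  imm₁ z := by
    rw [mfderiv_comp z (hγ _) (φ.holo₁ z)]
    exact (himm _).comp (φ.imm₁ z)

theorem EmbP1.image_map {M' : Type*} [TopologicalSpace M'] [ChartedSpace (Cm 2) M'] (φ : EmbP1 M)
    (γ : M → M') (hγ : MDifferentiable 𝓘(ℂ, Cm 2) 𝓘(ℂ, Cm 2) γ) (hinj : Function.Injective γ)
    (himm : ∀ x, Function.Injective (mfderiv 𝓘(ℂ, Cm 2) 𝓘(ℂ, Cm 2) γ x)) :
    (φ.map γ hγ hinj himm).image = γ '' φ.image := by
  change Set.range (γ ∘ φ.f₀) ∪ {γ (φ.f₁ 0)} = γ '' (Set.range φ.f₀ ∪ {φ.f₁ 0})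
  rw [Set.image_union, Set.range_comp, Set.image_singleton]

/-- A biholomorphic map is an immersion. -/
theorem injective_mfderiv_of_leftInverse {M' : Type*} [TopologicalSpace M']
    [ChartedSpace (Cm 2) M'] {γ : M → M'} {δ : M' → M}
    (hγ : MDifferentiable 𝓘(ℂ, Cm 2) 𝓘(ℂ, Cm 2) γ) (hδ : MDifferentiable 𝓘(ℂ, Cm 2) 𝓘(ℂ, Cm 2) δ)
    (h : Function.LeftInverse δ γ) (x : M) :
    Function.Injective (mfderiv 𝓘(ℂ, Cm 2) 𝓘(ℂ, Cm 2) γ x) := by
  have h1 : mfderiv 𝓘(ℂ, Cm 2) 𝓘(ℂ, Cm 2) (δ ∘ γ) x =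
      (mfderiv 𝓘(ℂ, Cm 2) 𝓘(ℂ, Cm 2) δ (γ x)).comp (mfderiv 𝓘(ℂ, Cm 2) 𝓘(ℂ, Cm 2) γ x) :=
    mfderiv_comp x (hδ _) (hγ x)
  have h2 : δ ∘ γ = id := h.comp_eq_id
  rw [h2, mfderiv_id] at h1
  intro v w hvw
  have h3 : ∀ v, v = mfderiv 𝓘(ℂ, Cm 2) 𝓘(ℂ, Cm 2) δ (γ x)
      (mfderiv 𝓘(ℂ, Cm 2) 𝓘(ℂ, Cm 2) γ x v) := fun v =>
    congrFun (congrArg DFunLike.coe h1) v
  rw [h3 v, h3 w, hvw]

/-- The image in `X` of an embedded projective line is a rational curve, if the fibres of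
`π : M → X` are countable. -/
theorem EmbP1.isRationalCurve {X : Type*} [TopologicalSpace X] [ChartedSpace (Cm 2) X]
    (φ : EmbP1 M) {π : M → X} (hπ : MDifferentiable 𝓘(ℂ, Cm 2) 𝓘(ℂ, Cm 2) π)
    (hfib : ∀ x, (π ⁻¹' {x}).Countable) : IsRationalCurve (π '' φ.image) := by
  refine ⟨⟨π ∘ φ.f₀, π ∘ φ.f₁, hπ.comp φ.holo₀, hπ.comp φ.holo₁,
    fun z hz => congrArg π (φ.glue z hz)⟩, ?_, ?_⟩
  · by_contra h
    push Not at h
    have h1 : φ.f₀ '' univ ⊆ π ⁻¹' {π (φ.f₀ 0)} := by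
      rintro _ ⟨z, -, rfl⟩
      exact h z 0
    have h2 : (φ.f₀ '' univ).Countable := (hfib _).mono h1
    have h3 : (univ : Set ℂ).Countable :=
      (Set.MapsTo.countable_of_injOn (mapsTo_image φ.f₀ univ) φ.inj.injOn h2)
    exact not_countable_complex h3
  · change π '' (Set.range φ.f₀ ∪ {φ.f₁ 0}) = Set.range (π ∘ φ.f₀) ∪ {π (φ.f₁ 0)}
    rw [Set.image_union, Set.range_comp, Set.image_singleton]

end Vale.Agent.P267.H338
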