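import Vale.Agent.P267.H338.Lines

/-!
# P267, area D: lines in different orbits have different images in the quotient
-/

open Set Filter Metric Topology
open scoped Manifold ContDiff
open Vale.Agent.P272.K Vale.Agent.P267.H757

noncomputable section

namespace Vale.Agent.P267.H338

section

variable {M : Type*} [TopologicalSpace M] [ChartedSpace (Cm 2) M] [T2Space M]
  [IsManifold 𝓘(ℂ, Cm 2) ω M]

/-- A line which is contained in the union of the translates of another one is contained in one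
of them. -/
theorem exists_subset_translate {sh : ℤ → M → M} (hsh : IsAct sh) (φ ψ : EmbP1 M)
    (h : φ.image ⊆ ⋃ k : ℤ, sh k '' ψ.image) : ∃ k : ℤ, φ.image ⊆ sh k '' ψ.image := by
  choose χ hχ using fun k => hsh.exists_map k ψ
  have h1 : ∀ k, IsHypersurface (sh k '' ψ.image) := by
    intro k
    rw [← hχ k]
    exact (χ k).isHypersurface
  obtain ⟨k, hk⟩ := H995.exists_translate_of_subset φ.f₀ (fun k : ℤ => sh k '' ψ.image)
    (by
      rintro _ ⟨z, rfl⟩
      exact h (φ.mem_image_f₀ z))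
    (fun k => (h1 k).closed.preimage φ.holo₀.continuous)
    (fun k => (h1 k).isClosed_interior φ.holo₀)
  refine ⟨k, φ.subset_of_f₀ (h1 k).closed ?_⟩
  exact eq_univ_of_forall fun z => hk ⟨z, rfl⟩

/-- **Images.** Lines in different orbits have different images in the quotient. -/
theorem exists_translate_of_image_eq {sh : ℤ → M → M} (hsh : IsAct sh) {f : M → ℝ}
    (hf : Continuous f) (hfsh : ∀ k x, f (sh k x) = f x + k) {X : Type*} {π : M → X}
    (hπ : ∀ x y, π x = π y → ∃ k, sh k x = y) (φ ψ : EmbP1 M)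
    (h : π '' φ.image = π '' ψ.image) : ∃ k : ℤ, sh k '' φ.image = ψ.image := by
  have hsub : ∀ φ ψ : EmbP1 M, π '' φ.image = π '' ψ.image →
      φ.image ⊆ ⋃ k : ℤ, sh k '' ψ.image := by
    intro φ ψ h x hx
    have h1 : π x ∈ π '' ψ.image := by rw [← h]; exact ⟨x, hx, rfl⟩
    obtain ⟨y, hy, hyx⟩ := h1
    obtain ⟨k, hk⟩ := hπ y x hyx
    exact mem_iUnion.2 ⟨k, y, hy, hk⟩
  obtain ⟨k, hk⟩ := exists_subset_translate hsh φ ψ (hsub φ ψ h)
  obtain ⟨k', hk'⟩ := exists_subset_translate hsh ψ φ (hsub ψ φ h.symm)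
  let _ : AddAction ℤ M :=
    { vadd := fun k x => sh k x
      zero_vadd := hsh.zero
      add_vadd := hsh.add }
  obtain ⟨R, hR⟩ : ∃ R : ℝ, ∀ x ∈ φ.image, |f x| ≤ R := by
    obtain ⟨R, hR⟩ := (φ.isCompact_image.image hf).isBounded.exists_norm_le
    exact ⟨R, fun x hx => hR _ ⟨x, hx, rfl⟩⟩
  have h1 := H995.eq_translate_of_subset (M := M) φ.image ψ.image ⟨_, φ.mem_image_f₀ 0⟩
    (by
      obtain ⟨N, hN⟩ := exists_nat_gt (2 * R)
      refine ⟨N, fun k hk => ?_⟩
      rw [Set.disjoint_left]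
      rintro _ ⟨x, hx, rfl⟩ hx'
      have h2 := hR x hx
      have h3 := hR _ hx'
      have h4 : f (k +ᵥ x) = f x + k := hfsh k x
      rw [h4] at h3
      have h5 : (N : ℝ) ≤ |(k : ℝ)| := by exact_mod_cast hk
      have h6 : |(k : ℝ)| ≤ 2 * R := by
        have : (k : ℝ) = (f x + k) - f x := by ring
        rw [this]
        calc |f x + k - f x| ≤ |f x + k| + |f x| := abs_sub _ _
          _ ≤ 2 * R := by linarith
      linarith) k k' hk hk'
  refine ⟨-k, ?_⟩
  rw [h1]
  change sh (-k) '' (sh k '' ψ.image) = ψ.image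
  rw [image_image]
  simp only [hsh.neg_left, image_id']

/-- **Rational curves in the quotient.** -/
theorem exists_curves {X : Type*} [TopologicalSpace X] [ChartedSpace (Cm 2) X]
    {sh : ℤ → M → M} (hsh : IsAct sh) {f : M → ℝ} (hf : Continuous f)
    (hfsh : ∀ k x, f (sh k x) = f x + k) {π : M → X} (hπd : MDifferentiable 𝓘(ℂ, Cm 2) 𝓘(ℂ, Cm 2) π)
    (hπ : ∀ x y, π x = π y → ∃ k, sh k x = y) {ι : Type*} (φ : ι → EmbP1 M)
    (hφ : ∀ i i' k, sh k '' (φ i).image = (φ i').image → i = i') :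
    ∃ C : ι → Set X, Function.Injective C ∧ ∀ i, IsRationalCurve (C i) := by
  refine ⟨fun i => π '' (φ i).image, ?_, fun i => (φ i).isRationalCurve hπd ?_⟩
  · intro i i' h
    obtain ⟨k, hk⟩ := exists_translate_of_image_eq hsh hf hfsh hπ (φ i) (φ i') h
    exact hφ i i' k hk
  · intro x
    by_cases hx : ∃ y, π y = x
    · obtain ⟨y, rfl⟩ := hx
      refine (countable_range (fun k : ℤ => sh k y)).mono ?_
      intro z hz
      obtain ⟨k, hk⟩ := hπ y z hz.symm
      exact ⟨k, hk⟩
    · have : π ⁻¹' {x} = ∅ := by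
        rw [eq_empty_iff_forall_notMem]
        exact fun y hy => hx ⟨y, hy⟩
      rw [this]
      exact countable_empty

end

end Vale.Agent.P267.H338
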