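import Vale.Agent.P267.H338.NoZero
import Vale.Agent.P267.H995.Count

/-!
# P267, area D: counting the orbits of embedded lines
-/

open Set Filter Metric Topology
open scoped Manifold ContDiff
open Vale.Agent.P272.K Vale.Agent.P267.H757

noncomputable section

namespace Vale.Agent.P267.H338

section

variable {E : Type*} [NormedAddCommGroup E] [NormedSpace ℂ E]
variable {M : Type*} [TopologicalSpace M] [ChartedSpace E M]

theorem surjective_mfderiv_of_inverse {σ τ : M → M} (hσ : MDifferentiable 𝓘(ℂ, E) 𝓘(ℂ, E) σ)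
    (hτ : MDifferentiable 𝓘(ℂ, E) 𝓘(ℂ, E) τ) (hστ : ∀ x, σ (τ x) = x) (hτσ : ∀ x, τ (σ x) = x)
    (x : M) : Function.Surjective (mfderiv 𝓘(ℂ, E) 𝓘(ℂ, E) σ x) := by
  have h1 : mfderiv 𝓘(ℂ, E) 𝓘(ℂ, E) (σ ∘ τ) (σ x) =
      (mfderiv 𝓘(ℂ, E) 𝓘(ℂ, E) σ (τ (σ x))).comp (mfderiv 𝓘(ℂ, E) 𝓘(ℂ, E) τ (σ x)) :=
    mfderiv_comp (σ x) (hσ _) (hτ _)
  have h2 : σ ∘ τ = id := funext hστ
  rw [h2, mfderiv_id, hτσ x] at h1
  intro v
  exact ⟨mfderiv 𝓘(ℂ, E) 𝓘(ℂ, E) τ (σ x) v, (congrFun (congrArg DFunLike.coe h1) v).symm⟩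

theorem IsDef.comp {C U : Set M} {l : M → ℂ} {σ τ : M → M}
    (hσ : MDifferentiable 𝓘(ℂ, E) 𝓘(ℂ, E) σ) (hτ : MDifferentiable 𝓘(ℂ, E) 𝓘(ℂ, E) τ)
    (hστ : ∀ x, σ (τ x) = x) (hτσ : ∀ x, τ (σ x) = x) (h : IsDef E (σ '' C) U l) :
    IsDef E C (σ ⁻¹' U) (fun x => l (σ x)) where
  isOpen := h.isOpen.preimage hσ.continuous
  hol := h.hol.comp hσ.mdifferentiableOn (fun x hx => hx)
  zero_iff x hx := by
    rw [h.zero_iff (σ x) hx]
    constructor
    · rintro ⟨y, hy, hyx⟩
      have : y = x := by rw [← hτσ y, hyx, hτσ]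
      rwa [← this]
    · exact fun hx => ⟨x, hx, rfl⟩
  reg x hx hxC := by
    have h1 : mfderiv 𝓘(ℂ, E) 𝓘(ℂ) (l ∘ σ) x =
        (mfderiv 𝓘(ℂ, E) 𝓘(ℂ) l (σ x)).comp (mfderiv 𝓘(ℂ, E) 𝓘(ℂ, E) σ x) :=
      mfderiv_comp x ((h.hol (σ x) hx).mdifferentiableAt (h.isOpen.mem_nhds hx)) (hσ x)
    intro h0
    change mfderiv 𝓘(ℂ, E) 𝓘(ℂ) (l ∘ σ) x = 0 at h0
    rw [h1] at h0
    apply h.reg (σ x) hx ⟨x, hxC, rfl⟩
    ext v
    obtain ⟨w, hw⟩ := surjective_mfderiv_of_inverse hσ hτ hστ hτσ x v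
    rw [← hw]
    exact congrFun (congrArg DFunLike.coe h0) w

/-- the norm function of a translate of a curve -/
theorem IsNormOf.comp [IsManifold 𝓘(ℂ, E) ω M] {C : Set M} {N : M → ℝ} {σ τ : M → M}
    (hσ : ContMDiff 𝓘(ℂ, E) 𝓘(ℂ, E) ω σ) (hτ : ContMDiff 𝓘(ℂ, E) 𝓘(ℂ, E) ω τ)
    (hστ : ∀ x, σ (τ x) = x) (hτσ : ∀ x, τ (σ x) = x) (h : IsNormOf E C N) :
    IsNormOf E (σ '' C) (fun x => N (τ x)) := by
  intro U l hl
  have h1σ := hσ.mdifferentiable (by simp)
  have h1τ := hτ.mdifferentiable (by simp)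
  obtain ⟨φ, hφ⟩ := h _ _ (IsDef.comp h1σ h1τ hστ hτσ hl)
  have hopen : ∀ B : Set M, IsOpen B → B ⊆ univ → IsOpen (τ '' B) := by
    intro B hB _
    have : τ '' B = σ ⁻¹' B := by
      ext x
      constructor
      · rintro ⟨y, hy, rfl⟩
        rw [mem_preimage, hστ]; exact hy
      · intro hx
        exact ⟨σ x, hx, hτσ x⟩
    rw [this]
    exact hB.preimage hσ.continuous
  have h2 := hφ.comp isOpen_univ h1τ.mdifferentiableOn
    ((contMDiff_real hτ).of_le le_top).contMDiffOn hopen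
  have h3 : univ ∩ τ ⁻¹' (σ ⁻¹' U) = U := by
    ext x
    simp [hστ]
  have h4 : (fun x => l (σ (τ x))) = l := by
    funext x; rw [hστ]
  rw [h3, h4] at h2
  exact ⟨_, h2⟩

end

section

variable {M : Type*} [TopologicalSpace M] [ChartedSpace (Cm 2) M]

/-- An action of `ℤ` on `M` by holomorphic maps. -/
structure IsAct (sh : ℤ → M → M) : Prop where
  zero : ∀ x, sh 0 x = x
  add : ∀ k l x, sh (k + l) x = sh k (sh l x)
  hol : ∀ k, ContMDiff 𝓘(ℂ, Cm 2) 𝓘(ℂ, Cm 2) ω (sh k)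

namespace IsAct

variable {sh : ℤ → M → M} (h : IsAct sh)
include h

theorem neg_left (k : ℤ) (x : M) : sh (-k) (sh k x) = x := by
  rw [← h.add, neg_add_cancel, h.zero]

theorem neg_right (k : ℤ) (x : M) : sh k (sh (-k) x) = x := by
  rw [← h.add, add_neg_cancel, h.zero]

theorem inj (k : ℤ) : Function.Injective (sh k) := by
  intro x y hxy
  rw [← h.neg_left k x, hxy, h.neg_left]

theorem mdiff (k : ℤ) : MDifferentiable 𝓘(ℂ, Cm 2) 𝓘(ℂ, Cm 2) (sh k) :=
  (h.hol k).mdifferentiable (by simp)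

theorem exists_map (k : ℤ) (φ : EmbP1 M) : ∃ ψ : EmbP1 M, ψ.image = sh k '' φ.image :=
  ⟨φ.map (sh k) (h.mdiff k) (h.inj k)
    (injective_mfderiv_of_leftInverse (h.mdiff k) (h.mdiff (-k)) (h.neg_left k)),
    φ.image_map _ _ _ _⟩

end IsAct

/-- the set of embedded projective lines in `M`, as subsets -/
def Lines (M : Type*) [TopologicalSpace M] [ChartedSpace (Cm 2) M] : Type _ :=
  {C : Set M // ∃ φ : EmbP1 M, φ.image = C}

/-- the action on the set of lines -/
@[reducible] def IsAct.addAction {sh : ℤ → M → M} (h : IsAct sh) : AddAction ℤ (Lines M) where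
  vadd k C := ⟨sh k '' C.1, by
    obtain ⟨φ, hφ⟩ := C.2
    obtain ⟨ψ, hψ⟩ := h.exists_map k φ
    exact ⟨ψ, by rw [hψ, hφ]⟩⟩
  zero_vadd C := by
    apply Subtype.ext
    change sh 0 '' C.1 = C.1
    rw [show sh 0 = id from funext h.zero, image_id]
  add_vadd k l C := by
    apply Subtype.ext
    change sh (k + l) '' C.1 = sh k '' (sh l '' C.1)
    rw [image_image]
    exact image_congr fun x _ => h.add k l x

end

/-- **Count.** `N i` are norm functions on `M` whose zero sets are unions of embedded projective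
lines; `P j k` is the intersection number with the translate by `sh k` of a class with support in
the compact set `K`. If `P j k (N i) = -δ_{ij} δ_{k0}`, then there are embedded projective lines
`φ i` in pairwise different orbits. -/
theorem exists_lines {M : Type*} [TopologicalSpace M] [ChartedSpace (Cm 2) M] [T2Space M]
    [SigmaCompactSpace M] [IsManifold 𝓘(ℂ, Cm 2) ω M] {ι : Type*} [Finite ι] [DecidableEq ι]
    {sh : ℤ → M → M} (hsh : IsAct sh) {f : M → ℝ} (hf : Continuous f)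
    (hfsh : ∀ k x, f (sh k x) = f x + k)
    {N : ι → M → ℝ} (hN : ∀ i, IsNormFn (Cm 2) (N i))
    (hZ : ∀ i x, N i x = 0 → ∃ φ : EmbP1 M, x ∈ φ.image ∧ ∀ y ∈ φ.image, N i y = 0)
    {K : Set M} (hK : IsCompact K) (P : ι → ℤ → (M → ℝ) → ℂ)
    (hPmul : ∀ i k N N', IsNormFn (Cm 2) N → IsNormFn (Cm 2) N' →
      P i k (fun x => N x * N' x) = P i k N + P i k N')
    (hPzero : ∀ i k N, IsNormFn (Cm 2) N → (∀ x ∈ sh k '' K, N x ≠ 0) → P i k N = 0)
    (hPsh : ∀ i k l N, IsNormFn (Cm 2) N → P i (k + l) (fun x => N (sh (-l) x)) = P i k N)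
    (hPN : ∀ i j k, P j k (N i) = if i = j ∧ k = 0 then -1 else 0) :
    ∃ φ : ι → EmbP1 M, ∀ i i' k, sh k '' (φ i).image = (φ i').image → i = i' := by
  classical
  have hFD : FiniteDimensional ℂ (Cm 2) := inferInstance
  -- norm functions of lines
  have hcurve : ∀ C : Lines M, IsCurve (Cm 2) C.1 := by
    rintro ⟨_, φ, rfl⟩
    exact φ.isCurve
  have hprec : ∀ C : Lines M, IsPreconnected C.1 := by
    rintro ⟨_, φ, rfl⟩
    exact φ.isPreconnected_image
  have hcomp : ∀ C : Lines M, IsCompact C.1 := by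
    rintro ⟨_, φ, rfl⟩
    exact φ.isCompact_image
  have hnon : ∀ C : Lines M, C.1.Nonempty := by
    rintro ⟨_, φ, rfl⟩
    exact ⟨_, φ.mem_image_f₀ 0⟩
  have hex : ∀ C : Lines M, ∃ NC : M → ℝ, IsNormOf (Cm 2) C.1 NC := by
    intro C
    obtain ⟨NC, h1, -⟩ := exists_normFn (hcurve C) isOpen_univ (subset_univ _)
    exact ⟨NC, h1⟩
  choose NC hNC using hex
  have hNCn : ∀ C, IsNormFn (Cm 2) (NC C) ∧ ∀ x, NC C x = 0 ↔ x ∈ C.1 := fun C =>
    isNormFn_of_curve (hcurve C) (hNC C)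
  let _ : AddAction ℤ (Lines M) := hsh.addAction
  have hvadd : ∀ (k : ℤ) (C : Lines M), (k +ᵥ C).1 = sh k '' C.1 := fun _ _ => rfl
  -- `P` of finite products and powers
  have hPone : ∀ i k, P i k (fun _ => 1) = 0 := fun i k =>
    hPzero i k _ isNormFn_one (fun _ _ => one_ne_zero)
  have hPpow : ∀ i k N (m : ℕ), IsNormFn (Cm 2) N → P i k (fun x => N x ^ m) = m * P i k N := by
    intro i k N m hN
    induction m with
    | zero => simpa using hPone i k
    | succ m ih =>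
      have h1 := hPmul i k _ _ (hN.pow m) hN
      have h2 : (fun x => N x ^ (m + 1)) = fun x => N x ^ m * N x := by
        funext x; rw [pow_succ]
      rw [h2, h1, ih]; push_cast; ring
  have hPprod : ∀ i k (F : Finset (Lines M)) (m : Lines M → ℕ),
      P i k (fun x => ∏ C ∈ F, NC C x ^ m C) = ∑ C ∈ F, (m C : ℂ) * P i k (NC C) := by
    intro i k F m
    induction F using Finset.induction_on with
    | empty => simpa using hPone i k
    | insert C F hC ih =>
      have h1 := hPmul i k _ _ ((hNCn C).1.pow (m C))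
        (isNormFn_prod F fun C' _ => (hNCn C').1.pow (m C'))
      rw [Finset.sum_insert hC, ← hPpow i k _ _ (hNCn C).1, ← ih, ← h1]
      congr 1
      funext x
      rw [Finset.prod_insert hC]
  -- bounds for `f`
  obtain ⟨R, hR⟩ : ∃ R : ℝ, ∀ x ∈ K, |f x| ≤ R := by
    obtain ⟨R, hR⟩ := (hK.image hf).isBounded.exists_norm_le
    exact ⟨R, fun x hx => hR _ ⟨x, hx, rfl⟩⟩
  -- equivariance
  have hequi : ∀ (C : Lines M) (k : ℤ) (i : ι) (l : ℤ),
      P i (l + k) (NC (k +ᵥ C)) = P i l (NC C) := by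
    intro C k i l
    have h1 : IsNormOf (Cm 2) (k +ᵥ C).1 (fun x => NC C (sh (-k) x)) :=
      IsNormOf.comp (hsh.hol k) (hsh.hol (-k)) (hsh.neg_right k) (hsh.neg_left k) (hNC C)
    obtain ⟨u, hu, hu0, hueq⟩ := IsNormOf.exists_unit (hcurve (k +ᵥ C)) (hNC (k +ᵥ C)) h1
    have h2 := hPmul i (l + k) _ _ (hNCn (k +ᵥ C)).1 hu
    rw [hPzero i (l + k) u hu (fun x _ => hu0 x), add_zero] at h2
    rw [← h2, ← hPsh i l k _ (hNCn C).1]
    congr 1
    funext x
    exact (hueq x).symm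
  -- finiteness
  have hfin : ∀ (C : Lines M) (i : ι), {l : ℤ | P i l (NC C) ≠ 0}.Finite := by
    intro C i
    obtain ⟨R', hR'⟩ : ∃ R' : ℝ, ∀ x ∈ C.1, |f x| ≤ R' := by
      obtain ⟨R', hR'⟩ := ((hcomp C).image hf).isBounded.exists_norm_le
      exact ⟨R', fun x hx => hR' _ ⟨x, hx, rfl⟩⟩
    refine (Set.finite_Icc (⌊-(R + R')⌋) (⌈R + R'⌉)).subset ?_
    intro l hl
    by_contra hcon
    apply hl
    apply hPzero i l _ (hNCn C).1
    rintro _ ⟨x, hx, rfl⟩ h0
    have h1 := ((hNCn C).2 _).1 h0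
    have h2 := hR' _ h1
    have h3 := hR x hx
    rw [hfsh] at h2
    rw [abs_le] at h2 h3
    apply hcon
    rw [mem_Icc]
    constructor
    · rw [Int.floor_le_iff]
      linarith
    · rw [Int.le_ceil_iff]
      linarith
  -- the main step
  have hmain : ∀ y : ι × ℤ →₀ ℂ, (∀ C : Lines M, y.sum (fun p a => a * P p.1 p.2 (NC C)) = 0) →
      y = 0 := by
    intro y hy
    ext ⟨i', l'⟩
    -- the norm function of the translate
    set N' : M → ℝ := fun x => N i' (sh (-l') x) with hN'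
    have hN'n : IsNormFn (Cm 2) N' := by
      refine (hN i').comp (hsh.mdiff _) ((contMDiff_real (hsh.hol (-l'))).of_le le_top) ?_
      intro B hB
      have : sh (-l') '' B = sh l' ⁻¹' B := by
        ext x
        constructor
        · rintro ⟨y, hy, rfl⟩
          rw [mem_preimage, hsh.neg_right]; exact hy
        · intro hx
          exact ⟨sh l' x, hx, hsh.neg_left l' x⟩
      rw [this]
      exact hB.preimage (hsh.hol l').continuous
    have hN'Z : ∀ x, N' x = 0 → ∃ C : Lines M, x ∈ C.1 ∧ ∀ z ∈ C.1, N' z = 0 := by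
      intro x hx
      obtain ⟨φ, hxφ, hφ⟩ := hZ i' _ hx
      obtain ⟨ψ, hψ⟩ := hsh.exists_map l' φ
      refine ⟨⟨ψ.image, ψ, rfl⟩, ?_, ?_⟩
      · change x ∈ ψ.image
        rw [hψ]
        exact ⟨_, hxφ, hsh.neg_right l' x⟩
      · intro z hz
        change z ∈ ψ.image at hz
        rw [hψ] at hz
        obtain ⟨w, hw, rfl⟩ := hz
        change N i' (sh (-l') (sh l' w)) = 0
        rw [hsh.neg_left]
        exact hφ w hw
    -- the compact set
    set KK : Set M := ⋃ p ∈ y.support, sh p.2 '' K with hKK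
    have hKKc : IsCompact KK := y.support.isCompact_biUnion fun p _ =>
      hK.image (hsh.hol p.2).continuous
    -- local finiteness
    choose V hVo hpV hVfin using exists_nhds_finite finrank_Cm2 hN'n
    obtain ⟨t, ht⟩ := hKKc.elim_finite_subcover V hVo (fun x _ => mem_iUnion.2 ⟨x, hpV x⟩)
    set O : Set M := ⋃ p ∈ t, V p with hO
    have hOo : IsOpen O := isOpen_biUnion fun p _ => hVo p
    have hfinF : {C : Lines M | (∀ x ∈ C.1, N' x = 0) ∧ (C.1 ∩ O).Nonempty}.Finite := by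
      have h1 : (⋃ p ∈ t, {C : Set M | IsCurve (Cm 2) C ∧ IsPreconnected C ∧
          (∀ x ∈ C, N' x = 0) ∧ (C ∩ V p).Nonempty}).Finite :=
        t.finite_toSet.biUnion fun p _ => hVfin p
      refine Set.Finite.of_finite_image (f := Subtype.val) (h1.subset ?_)
        Subtype.val_injective.injOn
      rintro _ ⟨C, ⟨hC0, x, hxC, hxO⟩, rfl⟩
      obtain ⟨p, hp, hxp⟩ := mem_iUnion₂.1 hxO
      exact mem_iUnion₂.2 ⟨p, hp, hcurve C, hprec C, hC0, x, hxC, hxp⟩
    set F : Finset (Lines M) := hfinF.toFinset with hF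
    obtain ⟨m, N'', hN'', heq, hne⟩ := exists_factor_near finrank_Cm2 F
      (fun C : Lines M => C.1) (fun C _ => hcurve C) (fun C _ => hprec C) (fun C _ => hnon C)
      (NC := NC) (fun C _ => hNC C) hN'n hOo (by
        intro x hx h0
        obtain ⟨C, hxC, hC⟩ := hN'Z x h0
        exact ⟨C, hfinF.mem_toFinset.2 ⟨hC, x, hxC, hx⟩, hxC⟩)
    have hKO : ∀ p ∈ y.support, ∀ x ∈ sh p.2 '' K, N'' x ≠ 0 := by
      intro p hp x hx
      exact hne x (ht (mem_iUnion₂.2 ⟨p, hp, hx⟩))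
    -- the pairing with `N'`
    have hPN' : ∀ p ∈ y.support, P p.1 p.2 N' = ∑ C ∈ F, (m C : ℂ) * P p.1 p.2 (NC C) := by
      intro p hp
      have h1 := hPmul p.1 p.2 _ _ (isNormFn_prod F fun C _ => (hNCn C).1.pow (m C)) hN''
      rw [hPzero p.1 p.2 N'' hN'' (hKO p hp), add_zero, hPprod] at h1
      rw [← h1]
      congr 1
      funext x
      exact heq x
    have h1 : ∑ p ∈ y.support, y p * P p.1 p.2 N' = 0 := by
      have h2 : ∑ p ∈ y.support, y p * P p.1 p.2 N' =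
          ∑ C ∈ F, (m C : ℂ) * ∑ p ∈ y.support, y p * P p.1 p.2 (NC C) := by
        rw [Finset.sum_congr rfl fun p hp => by rw [hPN' p hp, Finset.mul_sum]]
        rw [Finset.sum_comm]
        refine Finset.sum_congr rfl fun C _ => ?_
        rw [Finset.mul_sum]
        refine Finset.sum_congr rfl fun p _ => ?_
        ring
      rw [h2]
      refine Finset.sum_eq_zero fun C _ => ?_
      rw [show ∑ p ∈ y.support, y p * P p.1 p.2 (NC C) = 0 from hy C, mul_zero]
    -- the values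
    have h3 : ∀ p : ι × ℤ, P p.1 p.2 N' = if p = (i', l') then -1 else 0 := by
      rintro ⟨j, k⟩
      have h4 := hPsh j (k - l') l' (N i') (hN i')
      rw [sub_add_cancel] at h4
      change P j k (fun x => N i' (sh (-l') x)) = _
      rw [h4, hPN]
      by_cases hj : i' = j
      · subst hj
        by_cases hk : k = l'
        · subst hk; simp
        · have : k - l' ≠ 0 := sub_ne_zero.2 hk
          simp [this, hk]
      · have : (j, k) ≠ (i', l') := fun h => hj (Prod.mk.inj h).1.symm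
        simp [hj, this]
    rw [Finset.sum_congr rfl fun p _ => by rw [h3 p]] at h1
    simp only [mul_ite, mul_neg, mul_one, mul_zero, Finset.sum_ite_eq', Finsupp.mem_support_iff]
      at h1
    by_contra h5
    have h6 : y (i', l') ≠ 0 := h5
    rw [if_pos h6] at h1
    exact h6 (neg_eq_zero.1 h1)
  obtain ⟨φ, hφ⟩ := H995.exists_orbits (R := ℂ) (𝒞 := Lines M) (ι := ι)
    (fun C i l => P i l (NC C)) hequi hfin hmain
  choose ψ hψ using fun i => (φ i).2
  refine ⟨ψ, fun i i' k hk => hφ i i' k ?_⟩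
  apply Subtype.ext
  change sh k '' (φ i).1 = (φ i').1
  rw [← hψ i, ← hψ i', hk]

end Vale.Agent.P267.H338
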