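import Vale.Agent.P267.H338.Factor
import Vale.Agent.P267.H62.LocFin

/-!
# P267, area D: factorisation of a norm function whose zero set consists of embedded lines
-/

open Set Filter Metric Topology
open scoped Manifold ContDiff
open Vale.Agent.P272.K Vale.Agent.P267.H757

noncomputable section

namespace Vale.Agent.P267.H338

theorem finrank_Cm2 : Module.finrank ℂ (Cm 2) = 2 := by simp

section

variable {E : Type*} [NormedAddCommGroup E] [NormedSpace ℂ E]
variable {M : Type*} [TopologicalSpace M] [ChartedSpace E M]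

theorem IsCurve.toH62 {C : Set M} (hC : IsCurve E C) : H62.IsCurve E C := by
  refine ⟨hC.isClosed, fun p hp => ?_⟩
  obtain ⟨U, l, hpU, hd⟩ := hC.exists_def p hp
  refine ⟨l, ⟨?_, (hd.zero_iff p hpU).2 hp, hd.reg p hpU hp⟩, ?_⟩
  · filter_upwards [hd.isOpen.mem_nhds hpU] with x hx
    exact (hd.hol x hx).mdifferentiableAt (hd.isOpen.mem_nhds hx)
  · filter_upwards [hd.isOpen.mem_nhds hpU] with x hx
    exact (hd.zero_iff x hx).symm

theorem LocRep.holNear {N : M → ℝ} {U : Set M} {g : M → ℂ} {φ : M → ℝ} (h : LocRep E N U g φ)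
    {p : M} (hp : p ∈ U) : H62.HolNear E g p := by
  filter_upwards [h.isOpen.mem_nhds hp] with x hx
  exact (h.hol x hx).mdifferentiableAt (h.isOpen.mem_nhds hx)

/-- a norm function has no isolated zeros (dimension two) -/
theorem frequently_zero [IsManifold 𝓘(ℂ, E) ω M] (hE : Module.finrank ℂ E = 2) {N : M → ℝ}
    (hN : IsNormFn E N) {p : M} (hp : N p = 0) : ∃ᶠ x in 𝓝[≠] p, N x = 0 := by
  have hM1 : IsManifold 𝓘(ℂ, E) 1 M := IsManifold.of_le (n := ω) le_top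
  obtain ⟨U, g, φ, hpU, hg⟩ := hN p
  refine (H62.frequently_zero hE (LocRep.holNear hg hpU) ((hg.eq_zero_iff hpU).1 hp)).and_eventually
    (mem_nhdsWithin_of_mem_nhds (hg.isOpen.mem_nhds hpU)) |>.mono ?_
  intro x hx
  exact (hg.eq_zero_iff hx.2).2 hx.1

/-- A norm function which does not vanish identically on the connected curve `C` has isolated zeros
on `C`. -/
theorem isolated_zeros [T1Space M] [IsManifold 𝓘(ℂ, E) ω M] (hE : Module.finrank ℂ E = 2)
    {C : Set M} (hC : IsCurve E C) (hc : IsPreconnected C) {N : M → ℝ} (hN : IsNormFn E N)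
    (hne : ∃ x ∈ C, N x ≠ 0) (q : M) : ∀ᶠ x in 𝓝[≠] q, ¬ (x ∈ C ∧ N x = 0) := by
  have hM1 : IsManifold 𝓘(ℂ, E) 1 M := IsManifold.of_le (n := ω) le_top
  -- dichotomy at every point of `C`
  have hdich : ∀ p ∈ C, (∀ᶠ x in 𝓝 p, x ∈ C → N x = 0) ∨ ∀ᶠ x in 𝓝[≠] p, x ∈ C → N x ≠ 0 := by
    intro p hp
    obtain ⟨U, g, φ, hpU, hg⟩ := hN p
    obtain ⟨l, hl⟩ := (IsCurve.toH62 hC).2 p hp
    rcases H62.curve_dichotomy hE hl (LocRep.holNear hg hpU) with h | h
    · left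
      filter_upwards [h, hg.isOpen.mem_nhds hpU] with x h1 h2 h3
      exact (hg.eq_zero_iff h2).2 (h1 h3)
    · right
      filter_upwards [h, mem_nhdsWithin_of_mem_nhds (hg.isOpen.mem_nhds hpU)] with x h1 h2 h3
      exact (hg.ne_zero_iff h2).2 (h1 h3)
  -- the two sets
  set A : Set M := {p | ∀ᶠ x in 𝓝 p, x ∈ C → N x = 0} with hA
  set B : Set M := {p | ∀ᶠ x in 𝓝[≠] p, x ∈ C → N x ≠ 0} with hB
  have hAo : IsOpen A := isOpen_setOfPred_eventually_nhds
  -- the interior of `B` contains `B ∩ C`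
  have hBint : ∀ p ∈ B, ∀ᶠ x in 𝓝 p, x ∈ B := by
    intro p hp
    have h1 : ∀ᶠ x in 𝓝 p, x ≠ p → x ∈ C → N x ≠ 0 := eventually_nhdsWithin_iff.1 hp
    filter_upwards [h1.eventually_nhds] with x hx
    change ∀ᶠ y in 𝓝[≠] x, y ∈ C → N y ≠ 0
    by_cases hxp : x = p
    · subst hxp; exact hp
    · have h2 : ∀ᶠ y in 𝓝 x, y ≠ p := isOpen_ne.mem_nhds hxp
      refine mem_nhdsWithin_of_mem_nhds ?_
      filter_upwards [hx, h2] with y h3 h4 using h3 h4
  have hBo : IsOpen B := isOpen_iff_mem_nhds.2 hBint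
  have hsub : C ⊆ A ∪ B := fun p hp => hdich p hp
  obtain ⟨x₀, hx₀, hNx₀⟩ := hne
  have hnA : x₀ ∉ A := fun h => hNx₀ ((Filter.Eventually.self_of_nhds h) hx₀)
  have hAB : C ∩ (A ∩ B) = ∅ := by
    rw [Set.eq_empty_iff_forall_notMem]
    rintro p ⟨hpC, hpA, hpB⟩
    obtain ⟨l, hl⟩ := (IsCurve.toH62 hC).2 p hpC
    have h1 := H62.frequently_mem hE hl
    have h2 : ∀ᶠ x in 𝓝[≠] p, x ∉ C := by
      filter_upwards [mem_nhdsWithin_of_mem_nhds hpA, hpB] with x h3 h4 h5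
      exact h4 h5 (h3 h5)
    exact h1 h2
  have hCB : C ⊆ B := by
    rcases isPreconnected_iff_subset_of_disjoint.1 hc A B hAo hBo hsub hAB with h | h
    · exact absurd (h hx₀) hnA
    · exact h
  by_cases hq : q ∈ C
  · have h1 : ∀ᶠ x in 𝓝[≠] q, x ∈ C → N x ≠ 0 := hCB hq
    filter_upwards [h1] with x hx h2
    exact hx h2.1 h2.2
  · refine mem_nhdsWithin_of_mem_nhds ?_
    filter_upwards [hC.isClosed.isOpen_compl.mem_nhds hq] with x hx h2
    exact hx h2.1

/-- **Factorisation near a set.** If the zero set of the norm function `N` in the open set `O` is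
contained in the union of finitely many curves `C i`, `i ∈ F`, then
`N = ∏ (N_{C i})^{m i} N'` on all of `M`, with a norm function `N'` without zeros in `O`. -/
theorem exists_factor_near [T1Space M] [FiniteDimensional ℂ E] [IsManifold 𝓘(ℂ, E) ω M]
    (hE : Module.finrank ℂ E = 2) {ι : Type*} (F : Finset ι) (C : ι → Set M)
    (hC : ∀ i ∈ F, IsCurve E (C i)) (hc : ∀ i ∈ F, IsPreconnected (C i))
    (hne : ∀ i ∈ F, (C i).Nonempty) {NC : ι → M → ℝ} (hNC : ∀ i ∈ F, IsNormOf E (C i) (NC i))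
    {N : M → ℝ} (hN : IsNormFn E N) {O : Set M} (hO : IsOpen O)
    (hOF : ∀ x ∈ O, N x = 0 → ∃ i ∈ F, x ∈ C i) :
    ∃ (m : ι → ℕ) (N' : M → ℝ), IsNormFn E N' ∧ (∀ x, N x = (∏ i ∈ F, NC i x ^ m i) * N' x) ∧
      ∀ x ∈ O, N' x ≠ 0 := by
  classical
  obtain ⟨m, N', hN', heq, hF⟩ := exists_factor F C hC hne hNC hN
  refine ⟨m, N', hN', heq, fun x hx h0 => ?_⟩
  have h1 : ∀ᶠ y in 𝓝[≠] x, ∀ i ∈ F, ¬ (y ∈ C i ∧ N' y = 0) := by
    rw [Filter.eventually_all_finset]
    exact fun i hi => isolated_zeros hE (hC i hi) (hc i hi) hN' (hF i hi) x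
  refine frequently_zero hE hN' h0 ?_
  filter_upwards [h1, mem_nhdsWithin_of_mem_nhds (hO.mem_nhds hx)] with y h2 h3 h4
  obtain ⟨i, hi, hyi⟩ := hOF y h3 (by rw [heq, h4, mul_zero])
  exact h2 i hi ⟨hyi, h4⟩

/-- **Local finiteness**: near every point `p` only finitely many connected curves are contained in
the zero set of a norm function. -/
theorem exists_nhds_finite [T1Space M] [IsManifold 𝓘(ℂ, E) ω M] (hE : Module.finrank ℂ E = 2)
    {N : M → ℝ} (hN : IsNormFn E N) (p : M) :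
    ∃ V : Set M, IsOpen V ∧ p ∈ V ∧ {C : Set M | IsCurve E C ∧ IsPreconnected C ∧
      (∀ x ∈ C, N x = 0) ∧ (C ∩ V).Nonempty}.Finite := by
  have hM1 : IsManifold 𝓘(ℂ, E) 1 M := IsManifold.of_le (n := ω) le_top
  obtain ⟨U, g, φ, hpU, hg⟩ := hN p
  obtain ⟨V, hV, hfin⟩ := H62.exists_nhds_finite (Z := {x | N x = 0}) hE (LocRep.holNear hg hpU)
    (by
      intro h0
      obtain ⟨W, hW, hWo, hpW⟩ := mem_nhds_iff.1 (h0.and (hg.isOpen.mem_nhds hpU))
      obtain ⟨x, hx, hgx⟩ := hg.nz W hWo (fun y hy => (hW hy).2) ⟨p, hpW⟩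
      exact hgx (hW hx).1)
    (by
      filter_upwards [hg.isOpen.mem_nhds hpU] with x hx hx0
      exact (hg.eq_zero_iff hx).1 hx0)
  obtain ⟨W, hWV, hWo, hpW⟩ := mem_nhds_iff.1 hV
  refine ⟨W, hWo, hpW, hfin.subset ?_⟩
  rintro C ⟨h1, h2, h3, h4⟩
  exact ⟨IsCurve.toH62 h1, h2, h3, h4.mono (inter_subset_inter_right _ hWV)⟩

/-- Two norm functions of the same curve differ by a positive norm function. -/
theorem IsNormOf.exists_unit [FiniteDimensional ℂ E] [IsManifold 𝓘(ℂ, E) ω M] {C : Set M}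
    (hC : IsCurve E C) {N N' : M → ℝ} (hN : IsNormOf E C N) (hN' : IsNormOf E C N') :
    ∃ u : M → ℝ, IsNormFn E u ∧ (∀ x, u x ≠ 0) ∧ ∀ x, N' x = N x * u x := by
  have h1 := isNormFn_of_curve hC hN
  have h2 := isNormFn_of_curve hC hN'
  obtain ⟨u, hu, heq⟩ := exists_div hC h2.1 hN (fun x hx => (h2.2 x).2 hx)
  refine ⟨u, hu, fun x hx0 => ?_, heq⟩
  by_cases hx : x ∈ C
  · -- near `x` both are `‖l‖² e^{..}`
    obtain ⟨U, l, hxU, hd⟩ := hC.exists_def x hx
    obtain ⟨φ, hφ⟩ := hN U l hd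
    obtain ⟨φ', hφ'⟩ := hN' U l hd
    have h3 : ∀ y ∈ U, y ∈ Cᶜ → u y = Real.exp (φ y - φ' y) := by
      intro y hy hyC
      have hl : l y ≠ 0 := fun h => hyC ((hd.zero_iff y hy).1 h)
      have h4 := heq y
      rw [hφ.eq y hy, hφ'.eq y hy] at h4
      have h5 : ‖l y‖ ^ 2 ≠ 0 := by positivity
      have h6 : Real.exp (-φ' y) = Real.exp (-φ y) * u y :=
        mul_left_cancel₀ h5 (by rw [h4]; ring)
      have h7 : Real.exp (φ y - φ' y) = Real.exp (φ y) * Real.exp (-φ' y) := by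
        rw [← Real.exp_add]; congr 1
      rw [h7, h6, ← mul_assoc, ← Real.exp_add]
      simp
    have h4 := H757.eqOn_of_dense hd.isOpen hC.dense_compl hu.continuous.continuousOn
      (Real.continuous_exp.comp_continuousOn
        (hφ.smooth.continuousOn.sub hφ'.smooth.continuousOn)) h3 x hxU
    rw [hx0] at h4
    exact (Real.exp_pos _).ne h4
  · have h3 : N' x ≠ 0 := fun h => hx ((h2.2 x).1 h)
    rw [heq, hx0, mul_zero] at h3
    exact h3 rfl

end

end Vale.Agent.P267.H338
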